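import Vale.Agent.P371.Defs

/-!
# P371: the trace of a power of a positive semidefinite matrix

It is a uniform limit of traces of polynomials on sets with bounded entries, hence continuous.
-/

open Filter Set Polynomial
open scoped Topology ComplexOrder

namespace Vale.Agent.P371

variable {𝕜 : Type*} [RCLike 𝕜] {n : Type*} [Fintype n] [DecidableEq n]

lemma trace_aeval {A : Matrix n n 𝕜} (hA : A.IsHermitian) (P : ℝ[X]) :
    (aeval A P).trace = ∑ i, ((P.eval (hA.eigenvalues i) : ℝ) : 𝕜) := by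
  rw [← cfc_polynomial P A hA.isSelfAdjoint, hA.cfc_eq, Matrix.IsHermitian.cfc,
    Unitary.conjStarAlgAut_apply, Matrix.trace_mul_cycle, Unitary.coe_star_mul_self, one_mul,
    Matrix.trace_diagonal]
  rfl

lemma re_trace_aeval {A : Matrix n n 𝕜} (hA : A.IsHermitian) (P : ℝ[X]) :
    RCLike.re (aeval A P).trace = ∑ i, P.eval (hA.eigenvalues i) := by
  simp [trace_aeval hA P]

lemma trPow_eq {p : ℝ} {A : Matrix n n 𝕜} (hA : A.IsHermitian) :
    trPow p A = ∑ i, hA.eigenvalues i ^ p := by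
  unfold trPow; rw [dif_pos hA]

lemma trPow_nonneg {p : ℝ} {A : Matrix n n 𝕜} (hA : A.PosSemidef) : 0 ≤ trPow p A := by
  rw [trPow_eq hA.1]
  exact Finset.sum_nonneg fun i _ => Real.rpow_nonneg (hA.eigenvalues_nonneg i) _

lemma eigenvalues_le {A : Matrix n n 𝕜} (hA : A.PosSemidef) {B : ℝ}
    (hB : ∀ i j, ‖A i j‖ ≤ B) (i : n) : hA.1.eigenvalues i ≤ Fintype.card n * B := by
  refine (Finset.single_le_sum (fun j _ => hA.eigenvalues_nonneg j) (Finset.mem_univ i)).trans ?_
  have h := congrArg RCLike.re hA.1.trace_eq_sum_eigenvalues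
  simp only [map_sum, RCLike.ofReal_re] at h
  rw [← h, Matrix.trace, map_sum]
  refine (Finset.sum_le_sum fun j _ => (RCLike.re_le_norm _).trans (hB j j)).trans ?_
  simp

lemma trPow_le {p : ℝ} (hp : 0 ≤ p) {A : Matrix n n 𝕜} (hA : A.PosSemidef) {B : ℝ}
    (hB : ∀ i j, ‖A i j‖ ≤ B) : trPow p A ≤ Fintype.card n * (Fintype.card n * B) ^ p := by
  rw [trPow_eq hA.1]
  refine (Finset.sum_le_sum fun i _ => Real.rpow_le_rpow (hA.eigenvalues_nonneg i)
    (eigenvalues_le hA hB i) hp).trans ?_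
  simp

lemma abs_trPow_sub_le {p : ℝ} {A : Matrix n n 𝕜} (hA : A.PosSemidef) {B ε : ℝ} {P : ℝ[X]}
    (hB : ∀ i j, ‖A i j‖ ≤ B)
    (hP : ∀ t ∈ Icc (0 : ℝ) (Fintype.card n * B), |P.eval t - t ^ p| ≤ ε) :
    |trPow p A - RCLike.re (aeval A P).trace| ≤ Fintype.card n * ε := by
  rw [trPow_eq hA.1, re_trace_aeval hA.1, ← Finset.sum_sub_distrib]
  calc |∑ i, (hA.1.eigenvalues i ^ p - P.eval (hA.1.eigenvalues i))|
      ≤ ∑ _i : n, ε := (Finset.abs_sum_le_sum_abs _ _).trans (Finset.sum_le_sum fun i _ => by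
        rw [abs_sub_comm]
        exact hP _ ⟨hA.eigenvalues_nonneg i, eigenvalues_le hA hB i⟩)
    _ = Fintype.card n * ε := by simp

lemma continuous_re_trace_aeval (P : ℝ[X]) :
    Continuous fun A : Matrix n n 𝕜 => RCLike.re (aeval A P).trace :=
  RCLike.continuous_re.comp (Continuous.matrix_trace (Polynomial.continuous_aeval P))

/-- Continuity along sequences with bounded entries. -/
theorem tendsto_trPow {p : ℝ} (hp : 0 ≤ p) {ι : Type*} {l : Filter ι} {A : ι → Matrix n n 𝕜}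
    {A₀ : Matrix n n 𝕜} {B : ℝ} (hA : ∀ k, (A k).PosSemidef) (hA₀ : A₀.PosSemidef)
    (hB : ∀ k i j, ‖A k i j‖ ≤ B) (hB₀ : ∀ i j, ‖A₀ i j‖ ≤ B)
    (hlim : Tendsto A l (𝓝 A₀)) :
    Tendsto (fun k => trPow p (A k)) l (𝓝 (trPow p A₀)) := by
  rw [Metric.tendsto_nhds]
  intro ε hε
  obtain ⟨P, hP⟩ := exists_polynomial_near_of_continuousOn 0 (Fintype.card n * B)
    (fun t => t ^ p) (Real.continuous_rpow_const hp).continuousOn
    (ε / (3 * (Fintype.card n + 1))) (by positivity)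
  have hsmall : (Fintype.card n : ℝ) * (ε / (3 * (Fintype.card n + 1))) ≤ ε / 3 := by
    rw [← mul_div_assoc, div_le_div_iff₀ (by positivity) (by norm_num)]
    nlinarith
  filter_upwards [Metric.tendsto_nhds.1 (((continuous_re_trace_aeval P).tendsto A₀).comp hlim)
    (ε / 3) (by positivity)] with k hk
  have h1 := abs_trPow_sub_le (hA k) (hB k) (fun t ht => (hP t ht).le)
  have h2 := abs_trPow_sub_le hA₀ hB₀ (fun t ht => (hP t ht).le)
  rw [Function.comp_apply, Real.dist_eq] at hk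
  rw [Real.dist_eq, abs_lt]
  rw [abs_le] at h1 h2
  rw [abs_lt] at hk
  constructor <;> linarith

/-- Continuity along a continuous curve with bounded entries. -/
lemma continuousOn_trPow {p : ℝ} (hp : 0 ≤ p) {X : Type*} [TopologicalSpace X] {s : Set X}
    {A : X → Matrix n n 𝕜} {B : ℝ} (hA : ∀ x ∈ s, (A x).PosSemidef)
    (hB : ∀ x ∈ s, ∀ i j, ‖A x i j‖ ≤ B) (hc : ∀ i j, ContinuousOn (fun x => A x i j) s) :
    ContinuousOn (fun x => trPow p (A x)) s := by
  rw [continuousOn_iff_continuous_domRestrict, continuous_iff_continuousAt]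
  intro x
  refine tendsto_trPow hp (fun y : s => hA y y.2) (hA x x.2) (fun y => hB y y.2) (hB x x.2) ?_
  refine tendsto_pi_nhds.2 fun i => tendsto_pi_nhds.2 fun j => ?_
  exact (continuousOn_iff_continuous_domRestrict.1 (hc i j)).continuousAt

end Vale.Agent.P371
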