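import Vale.Agent.P371.Shell.H1
import Vale.Agent.P371.Shell.TrPow

/-!
# P371: from measurable potentials and `H¹` families to continuous data on an interval

`LiftBound` is the bound for continuous potentials and continuously differentiable families on a
compact interval, in the form the lifting lemma takes. It implies `MCoreBound` and `SCoreBound`.
-/

open MeasureTheory Filter Set Finset
open scoped Topology InnerProductSpace

namespace Vale.Agent.P371

/-- The bound for continuous data on an interval, with the boundary terms of the lifting lemma. -/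
def LiftBound (γ : ℝ) (m : ℕ) : Prop :=
  ∀ (N : ℕ) (a b : ℝ) (W : ℝ → Matrix (Fin m) (Fin m) ℝ) (ψ dψ : Fin N → ℝ → Fin m → ℝ)
    (k : Fin N → ℝ) (ν₀ : ℝ), a ≤ b →
    (∀ μ ν, ContinuousOn (fun x => W x μ ν) (Set.Icc a b)) →
    (∀ x ∈ Set.Icc a b, (W x).PosSemidef) →
    (∀ j μ, ContinuousOn (fun x => dψ j x μ) (Set.Icc a b)) →
    (∀ j μ, ∀ x ∈ Set.Icc a b,
      HasDerivWithinAt (fun y => ψ j y μ) (dψ j x μ) (Set.Icc a b) x) →
    (∀ j, 0 < k j) → (∀ i j, i ≤ j → k j ≤ k i) → 0 < ν₀ →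
    (∀ c : Fin N → ℝ, ν₀ * ∑ i, c i ^ 2 ≤ ∫ x in a..b, ∑ μ, (∑ i, c i * ψ i x μ) ^ 2) →
    (∀ (j : Fin N) (c : Fin N → ℝ), (∀ i, j < i → c i = 0) →
      (∫ x in a..b, ((∑ μ, (∑ i, c i * dψ i x μ) ^ 2) -
          ∑ μ, ∑ ν, (∑ i, c i * ψ i x μ) * W x μ ν * ∑ i, c i * ψ i x ν)) +
        k j ^ 2 * (∫ x in a..b, ∑ μ, (∑ i, c i * ψ i x μ) ^ 2) +
        k j * ((∑ μ, (∑ i, c i * ψ i a μ) ^ 2) + ∑ μ, (∑ i, c i * ψ i b μ) ^ 2) ≤ 0) →
    ∑ j, k j ^ (2 * γ) ≤ L1 γ * ∫ x in a..b, trPow (γ + 1 / 2) (W x)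

/-! ## One `H¹` coordinate -/

lemma IsH1.intervalIntegrable_sq {u du : ℝ → ℝ} (h : IsH1 u du) (a b : ℝ) :
    IntervalIntegrable (fun x => u x ^ 2) volume a b :=
  ((h.memLp.integrable_sq)).intervalIntegrable

lemma abs_le_add_sq_div {t s : ℝ} (hs : 0 < s) : |t| ≤ s / 2 + t ^ 2 / (2 * s) := by
  rw [div_add_div _ _ (by norm_num) (by positivity), le_div_iff₀ (by positivity)]
  nlinarith [sq_nonneg (|t| - s), sq_abs t]

lemma IsH1.abs_le_window {u du : ℝ → ℝ} (h : IsH1 u du) (b : ℝ) {s : ℝ} (hs : 0 < s) :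
    |u b| ≤ s + (∫ x in b..b + 1, (u x ^ 2 + du x ^ 2)) / (2 * s) := by
  have hb : b ≤ b + 1 := by linarith
  have i1 : IntervalIntegrable (fun x => |du x|) volume b (b + 1) := (h.intervalIntegrable _ _).abs
  have i2 : IntervalIntegrable (fun x => |u x|) volume b (b + 1) :=
    (h.continuous.intervalIntegrable _ _).abs
  have i3 : IntervalIntegrable (fun x => u x ^ 2 + du x ^ 2) volume b (b + 1) :=
    (h.intervalIntegrable_sq _ _).add h.memLp_deriv.integrable_sq.intervalIntegrable
  have hpt : ∀ a ∈ Set.Icc b (b + 1), |u b| ≤ |u a| + ∫ t in b..b + 1, |du t| := by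
    intro a ha
    have h1 : |u a - u b| ≤ ∫ t in b..a, |du t| := by
      rw [h.ftc b a]; exact intervalIntegral.abs_integral_le_integral_abs ha.1
    have h2 : ∫ t in b..a, |du t| ≤ ∫ t in b..b + 1, |du t| :=
      intervalIntegral.integral_mono_interval le_rfl ha.1 ha.2
        (Eventually.of_forall fun t => abs_nonneg _) i1
    have h3 := abs_sub_abs_le_abs_sub (u b) (u a)
    rw [abs_sub_comm] at h3
    linarith
  have h4 := intervalIntegral.integral_mono_on hb intervalIntegrable_const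
    (i2.add intervalIntegrable_const) hpt
  rw [intervalIntegral.integral_add i2 intervalIntegrable_const] at h4
  simp only [intervalIntegral.integral_const, smul_eq_mul, add_sub_cancel_left, one_mul] at h4
  rw [← intervalIntegral.integral_add i2 i1] at h4
  refine h4.trans ((intervalIntegral.integral_mono_on hb (i2.add i1)
    ((intervalIntegrable_const (c := s)).add (i3.div_const (2 * s))) fun x _ => ?_).trans (le_of_eq ?_))
  · have h5 := abs_le_add_sq_div (t := u x) hs
    have h6 := abs_le_add_sq_div (t := du x) hs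
    show |u x| + |du x| ≤ s + (u x ^ 2 + du x ^ 2) / (2 * s)
    rw [add_div]
    linarith
  · rw [intervalIntegral.integral_add intervalIntegrable_const (i3.div_const _),
      intervalIntegral.integral_div]
    simp

lemma IsH1.tendsto_zero_of_window {ι : Type*} {l : Filter ι} {u du : ℝ → ℝ} (h : IsH1 u du)
    {b : ι → ℝ}
    (hw : Tendsto (fun i => ∫ x in b i..b i + 1, (u x ^ 2 + du x ^ 2)) l (𝓝 0)) :
    Tendsto (fun i => u (b i)) l (𝓝 0) := by
  rw [Metric.tendsto_nhds]
  intro ε hε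
  filter_upwards [Metric.tendsto_nhds.1 hw (ε ^ 2 / 2) (by positivity)] with i hi
  rw [Real.dist_eq, sub_zero] at hi ⊢
  have h1 := h.abs_le_window (b i) (half_pos hε)
  have h2 : (∫ x in b i..b i + 1, (u x ^ 2 + du x ^ 2)) / (2 * (ε / 2)) < ε / 2 := by
    rw [div_lt_iff₀ (by positivity)]
    linarith [le_abs_self (∫ x in b i..b i + 1, (u x ^ 2 + du x ^ 2))]
  linarith

lemma IsH1.tendsto_atTop {u du : ℝ → ℝ} (h : IsH1 u du) :
    Tendsto (fun n : ℕ => u (n : ℝ)) atTop (𝓝 0) := by
  refine h.tendsto_zero_of_window ?_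
  have hf : Integrable fun x => u x ^ 2 + du x ^ 2 :=
    h.memLp.integrable_sq.add h.memLp_deriv.integrable_sq
  have hn : Tendsto (fun n : ℕ => (n : ℝ)) atTop atTop := tendsto_natCast_atTop_atTop
  have h1 := intervalIntegral_tendsto_integral_Ioi 0 hf.integrableOn (tendsto_atTop_add_const_right _ 1 hn)
  have h2 := intervalIntegral_tendsto_integral_Ioi 0 hf.integrableOn hn
  have h3 := h1.sub h2
  rw [sub_self] at h3
  exact h3.congr fun n => intervalIntegral.integral_interval_sub_left hf.intervalIntegrable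
    hf.intervalIntegrable

lemma IsH1.tendsto_atBot {u du : ℝ → ℝ} (h : IsH1 u du) :
    Tendsto (fun n : ℕ => u (-(n : ℝ))) atTop (𝓝 0) := by
  refine h.tendsto_zero_of_window ?_
  have hf : Integrable fun x => u x ^ 2 + du x ^ 2 :=
    h.memLp.integrable_sq.add h.memLp_deriv.integrable_sq
  have hn : Tendsto (fun n : ℕ => -(n : ℝ)) atTop atBot :=
    tendsto_neg_atTop_atBot.comp tendsto_natCast_atTop_atTop
  have h1 := intervalIntegral_tendsto_integral_Iic 0 hf.integrableOn
    (tendsto_atBot_add_const_right _ 1 hn)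
  have h2 := intervalIntegral_tendsto_integral_Iic 0 hf.integrableOn hn
  have h3 := h2.sub h1
  rw [sub_self] at h3
  refine h3.congr fun n => ?_
  rw [sub_eq_iff_eq_add, intervalIntegral.integral_add_adjacent_intervals hf.intervalIntegrable
    hf.intervalIntegrable]

/-! ## Approximations -/

/-- The mean of a function over `[x, x + 1 / (M + 1)]`. -/
noncomputable def steklov (w : ℝ → ℝ) (M : ℕ) (x : ℝ) : ℝ :=
  ((M : ℝ) + 1) * ∫ t in x..x + 1 / ((M : ℝ) + 1), w t

lemma continuous_steklov {w : ℝ → ℝ} (hw : ∀ a b, IntervalIntegrable w volume a b) (M : ℕ) :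
    Continuous (steklov w M) := by
  have e : steklov w M = fun x => ((M : ℝ) + 1) *
      ((∫ t in (0 : ℝ)..x + 1 / ((M : ℝ) + 1), w t) - ∫ t in (0 : ℝ)..x, w t) := funext fun x => by
    rw [steklov, intervalIntegral.integral_interval_sub_left (hw _ _) (hw _ _)]
  rw [e]
  have hc := intervalIntegral.continuous_primitive hw 0
  exact continuous_const.mul ((hc.comp (continuous_id.add continuous_const)).sub hc)

lemma steklov_nonneg {w : ℝ → ℝ} (hw : ∀ t, 0 ≤ w t) (M : ℕ) (x : ℝ) : 0 ≤ steklov w M x :=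
  mul_nonneg (by positivity)
    (intervalIntegral.integral_nonneg (le_add_of_nonneg_right (by positivity)) fun t _ => hw t)

lemma abs_steklov_le {w : ℝ → ℝ} {B : ℝ} (hw : ∀ t, |w t| ≤ B) (M : ℕ) (x : ℝ) :
    |steklov w M x| ≤ B := by
  have h := intervalIntegral.norm_integral_le_of_norm_le_const (a := x) (f := w)
    (b := x + 1 / ((M : ℝ) + 1)) fun t _ => (Real.norm_eq_abs (w t)).trans_le (hw t)
  rw [Real.norm_eq_abs, add_sub_cancel_left, abs_of_nonneg (show (0 : ℝ) ≤ 1 / ((M : ℝ) + 1) by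
    positivity), mul_one_div, le_div_iff₀ (by positivity)] at h
  rw [steklov, abs_mul, abs_of_pos (by positivity : (0 : ℝ) < (M : ℝ) + 1), mul_comm]
  exact h

lemma tendsto_steklov {w : ℝ → ℝ} (hw : LocallyIntegrable w volume) :
    ∀ᵐ x, Tendsto (fun M => steklov w M x) atTop (𝓝 (w x)) := by
  have hi : ∀ a b, IntervalIntegrable w volume a b := fun a b =>
    (hw.integrableOn_isCompact isCompact_uIcc).intervalIntegrable
  filter_upwards [LocallyIntegrable.ae_hasDerivAt_integral hw] with x hx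
  have ht : Tendsto (fun M : ℕ => 1 / ((M : ℝ) + 1)) atTop (𝓝[>] 0) :=
    tendsto_nhdsWithin_iff.2 ⟨tendsto_one_div_add_atTop_nhds_zero_nat,
      Eventually.of_forall fun M => by simp only [Set.mem_Ioi]; positivity⟩
  refine ((hx 0).tendsto_slope_zero_right.comp ht).congr fun M => ?_
  simp only [Function.comp, steklov, smul_eq_mul, one_div, inv_inv,
    intervalIntegral.integral_interval_sub_left (hi _ _) (hi _ _)]

lemma exists_continuous_approx {f : ℝ → ℝ} (hf : MemLp f 2) :
    ∃ g : ℕ → ℝ → ℝ, ∀ M : ℕ, Continuous (g M) ∧ MemLp (g M) 2 ∧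
      (∫ x, (f x - g M x) ^ 2) ≤ 1 / ((M : ℝ) + 1) := by
  have hf' : MemLp f (ENNReal.ofReal 2) := by simpa using hf
  choose g h1 h2 h3 h4 using fun M : ℕ =>
    hf'.exists_hasCompactSupport_integral_rpow_sub_le (by norm_num : (0 : ℝ) < 2)
      (show (0 : ℝ) < 1 / ((M : ℝ) + 1) by positivity)
  refine ⟨g, fun M => ⟨h3 M, by simpa using h4 M, le_trans (le_of_eq ?_) (h2 M)⟩⟩
  refine integral_congr_ae (Eventually.of_forall fun x => ?_)
  show (f x - g M x) ^ 2 = ‖f x - g M x‖ ^ (2 : ℝ)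
  rw [Real.rpow_two, Real.norm_eq_abs, sq_abs]

lemma tendsto_sqrt_inv : Tendsto (fun M : ℕ => Real.sqrt (1 / ((M : ℝ) + 1))) atTop (𝓝 0) := by
  simpa using tendsto_one_div_add_atTop_nhds_zero_nat.sqrt

lemma interval_sub_le {d g : ℝ → ℝ} (hd : MemLp d 2) (hg : MemLp g 2) {a b x s : ℝ} (hax : a ≤ x)
    (hxb : x ≤ b) (hs : 0 < s) (h : (∫ t, (d t - g t) ^ 2) ≤ s ^ 2) :
    |(∫ t in a..x, g t) - ∫ t in a..x, d t| ≤ s * (b - a + 1) / 2 := by
  have hab : a ≤ b := hax.trans hxb
  have hi : ∀ {f : ℝ → ℝ}, MemLp f 2 → ∀ u v, IntervalIntegrable f volume u v := fun hf u v =>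
    ((hf.locallyIntegrable (by norm_num)).integrableOn_isCompact isCompact_uIcc).intervalIntegrable
  have hsq : Integrable fun t => (d t - g t) ^ 2 := (hd.sub hg).integrable_sq
  rw [← intervalIntegral.integral_sub (hi hg _ _) (hi hd _ _)]
  refine (intervalIntegral.abs_integral_le_integral_abs hax).trans ?_
  have hI : IntervalIntegrable (fun t => |g t - d t|) volume a b := ((hi hg _ _).sub (hi hd _ _)).abs
  refine (intervalIntegral.integral_mono_interval le_rfl hax hxb
    (Eventually.of_forall fun t => abs_nonneg _) hI).trans ?_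
  refine (intervalIntegral.integral_mono_on hab hI
    ((intervalIntegrable_const (c := s / 2)).add ((hsq.intervalIntegrable).div_const (2 * s)))
    fun t _ => ?_).trans ?_
  · show |g t - d t| ≤ s / 2 + (d t - g t) ^ 2 / (2 * s)
    rw [abs_sub_comm]
    exact abs_le_add_sq_div hs
  rw [intervalIntegral.integral_add intervalIntegrable_const (hsq.intervalIntegrable.div_const _),
    intervalIntegral.integral_div]
  simp only [intervalIntegral.integral_div, intervalIntegral.integral_const, smul_eq_mul]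
  have h1 : ∫ t in a..b, (d t - g t) ^ 2 ≤ s ^ 2 := le_trans (by
    rw [intervalIntegral.integral_of_le hab]
    exact setIntegral_le_integral hsq (Eventually.of_forall fun t => sq_nonneg _)) h
  have h2 : (∫ t in a..b, (d t - g t) ^ 2) / (2 * s) ≤ s / 2 := by
    rw [div_le_iff₀ (by positivity)]; nlinarith
  linarith

lemma tendsto_integral_mul_approx {d d' : ℝ → ℝ} {g g' : ℕ → ℝ → ℝ} (hd : MemLp d 2)
    (hd' : MemLp d' 2) (hg : ∀ M, MemLp (g M) 2) (hg' : ∀ M, MemLp (g' M) 2)
    (h : ∀ M : ℕ, (∫ x, (d x - g M x) ^ 2) ≤ 1 / ((M : ℝ) + 1))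
    (h' : ∀ M : ℕ, (∫ x, (d' x - g' M x) ^ 2) ≤ 1 / ((M : ℝ) + 1)) (a b : ℝ) :
    Tendsto (fun M => ∫ x in a..b, g M x * g' M x) atTop (𝓝 (∫ x in a..b, d x * d' x)) := by
  set Q := (∫ x, d x ^ 2) + ∫ x, d' x ^ 2
  refine tendsto_iff_dist_tendsto_zero.2 (squeeze_zero (fun M => dist_nonneg)
    (g := fun M : ℕ => 1 / ((M : ℝ) + 1) + Real.sqrt (1 / ((M : ℝ) + 1)) * (1 + Q / 2))
    (fun M => ?_) ?_)
  · set s := Real.sqrt (1 / ((M : ℝ) + 1))
    have hs : 0 < s := Real.sqrt_pos.2 (by positivity)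
    have hs2 : s ^ 2 = 1 / ((M : ℝ) + 1) := Real.sq_sqrt (by positivity)
    have i1 : Integrable fun x => g M x * g' M x := (hg M).integrable_mul (hg' M)
    have i2 : Integrable fun x => d x * d' x := hd.integrable_mul hd'
    have j1 : Integrable fun x => (d x - g M x) ^ 2 := (hd.sub (hg M)).integrable_sq
    have j2 : Integrable fun x => (d' x - g' M x) ^ 2 := (hd'.sub (hg' M)).integrable_sq
    have k1 : Integrable fun x =>
        (1 / (2 * s) + 1 / 2) * ((d x - g M x) ^ 2 + (d' x - g' M x) ^ 2) :=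
      (j1.add j2).const_mul _
    have k2 : Integrable fun x => s / 2 * (d x ^ 2 + d' x ^ 2) :=
      (hd.integrable_sq.add hd'.integrable_sq).const_mul _
    rw [Real.dist_eq, ← intervalIntegral.integral_sub i1.intervalIntegrable i2.intervalIntegrable]
    refine (intervalIntegral.norm_integral_le_integral_norm_uIoc (f := fun x =>
      g M x * g' M x - d x * d' x)).trans ?_
    refine (setIntegral_le_integral (i1.sub i2).norm
      (Eventually.of_forall fun x => norm_nonneg _)).trans ?_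
    refine (integral_mono (i1.sub i2).norm (k1.add k2) fun x => ?_).trans ?_
    · simp only [Real.norm_eq_abs, Pi.add_apply, Pi.sub_apply]
      set p := d x - g M x
      set q := d' x - g' M x
      have e : g M x * g' M x - d x * d' x = p * q - (p * d' x + d x * q) := by simp only [p, q]; ring
      have b1 : |p * q| ≤ (p ^ 2 + q ^ 2) / 2 := by
        rw [abs_mul]; nlinarith [sq_nonneg (|p| - |q|), sq_abs p, sq_abs q]
      have key : ∀ u v : ℝ, |u * v| ≤ 1 / (2 * s) * u ^ 2 + s / 2 * v ^ 2 := fun u v => by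
        rw [abs_mul, ← sq_abs u, ← sq_abs v, div_mul_eq_mul_div, div_mul_eq_mul_div,
          div_add_div _ _ (by positivity) (by norm_num), le_div_iff₀ (by positivity)]
        nlinarith [sq_nonneg (|u| - s * |v|)]
      have b2 := key p (d' x)
      have b3 := key q (d x)
      rw [mul_comm q (d x)] at b3
      rw [e]
      linarith [abs_sub (p * q) (p * d' x + d x * q), abs_add_le (p * d' x) (d x * q)]
    · simp only [Pi.add_apply]
      rw [integral_add k1 k2, integral_const_mul, integral_const_mul, integral_add j1 j2,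
        integral_add hd.integrable_sq hd'.integrable_sq]
      refine le_trans (add_le_add_left (mul_le_mul_of_nonneg_left (add_le_add (h M) (h' M))
        (by positivity)) _) (le_of_eq ?_)
      rw [← hs2]
      field_simp
      ring
  · simpa using tendsto_one_div_add_atTop_nhds_zero_nat.add (tendsto_sqrt_inv.mul_const (1 + Q / 2))

/-! ## Arrays -/

lemma expand_sq {N m : ℕ} (c : Fin N → ℝ) (f : Fin N → Fin m → ℝ) :
    ∑ μ, (∑ i, c i * f i μ) ^ 2 = ∑ i, ∑ l, c i * c l * ∑ μ, f i μ * f l μ := by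
  simp only [sq, sum_mul_sum]
  simp only [mul_sum]
  rw [sum_comm]
  refine sum_congr rfl fun i _ => ?_
  rw [sum_comm]
  exact sum_congr rfl fun l _ => sum_congr rfl fun μ _ => by ring

lemma expand_pot {N m : ℕ} (c : Fin N → ℝ) (f : Fin N → Fin m → ℝ)
    (A : Matrix (Fin m) (Fin m) ℝ) :
    ∑ μ, ∑ ν, (∑ i, c i * f i μ) * A μ ν * ∑ i, c i * f i ν =
      ∑ i, ∑ l, c i * c l * ∑ μ, ∑ ν, f i μ * A μ ν * f l ν := by
  simp only [mul_sum, sum_mul]
  calc ∑ μ, ∑ ν, ∑ l, ∑ i, c i * f i μ * A μ ν * (c l * f l ν)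
      = ∑ μ, ∑ l, ∑ ν, ∑ i, c i * f i μ * A μ ν * (c l * f l ν) :=
        sum_congr rfl fun μ _ => sum_comm
    _ = ∑ l, ∑ μ, ∑ ν, ∑ i, c i * f i μ * A μ ν * (c l * f l ν) := sum_comm
    _ = ∑ l, ∑ μ, ∑ i, ∑ ν, c i * f i μ * A μ ν * (c l * f l ν) :=
        sum_congr rfl fun l _ => sum_congr rfl fun μ _ => sum_comm
    _ = ∑ l, ∑ i, ∑ μ, ∑ ν, c i * f i μ * A μ ν * (c l * f l ν) :=
        sum_congr rfl fun l _ => sum_comm
    _ = ∑ i, ∑ l, ∑ μ, ∑ ν, c i * f i μ * A μ ν * (c l * f l ν) := sum_comm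
    _ = _ := sum_congr rfl fun i _ => sum_congr rfl fun l _ => sum_congr rfl fun μ _ =>
        sum_congr rfl fun ν _ => by ring

lemma integral_quad {N : ℕ} {a b : ℝ} (c : Fin N → ℝ) {F : Fin N → Fin N → ℝ → ℝ}
    (hF : ∀ i l, IntervalIntegrable (F i l) volume a b) :
    ∫ x in a..b, ∑ i, ∑ l, c i * c l * F i l x =
      ∑ i, ∑ l, c i * c l * ∫ x in a..b, F i l x := by
  have h1 : ∀ i l, IntervalIntegrable (fun x => c i * c l * F i l x) volume a b :=
    fun i l => (hF i l).const_mul _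
  rw [intervalIntegral.integral_finsetSum fun i _ => by
    simpa only [← Finset.sum_fn] using IntervalIntegrable.sum univ fun l _ => h1 i l]
  refine sum_congr rfl fun i _ => ?_
  rw [intervalIntegral.integral_finsetSum fun l _ => h1 i l]
  exact sum_congr rfl fun l _ => intervalIntegral.integral_const_mul _ _

lemma quad_abs_le {N : ℕ} (c : Fin N → ℝ) (F : Fin N → Fin N → ℝ) :
    |∑ i, ∑ l, c i * c l * F i l| ≤ (∑ i, ∑ l, |F i l|) * ∑ i, c i ^ 2 := by
  refine (abs_sum_le_sum_abs _ _).trans ?_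
  rw [sum_mul]
  refine sum_le_sum fun i _ => (abs_sum_le_sum_abs _ _).trans ?_
  rw [sum_mul]
  refine sum_le_sum fun l _ => ?_
  rw [abs_mul, abs_mul, mul_comm _ (∑ i, c i ^ 2)]
  refine mul_le_mul_of_nonneg_right ?_ (abs_nonneg _)
  have hi := single_le_sum (f := fun i => c i ^ 2) (fun i _ => sq_nonneg _) (mem_univ i)
  have hl := single_le_sum (f := fun i => c i ^ 2) (fun i _ => sq_nonneg _) (mem_univ l)
  nlinarith [sq_abs (c i), sq_abs (c l), sq_nonneg (|c i| - |c l|)]

/-- The bound in coordinates. -/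
theorem coord_core {γ : ℝ} (hγ : 1 / 2 < γ) {m : ℕ} (hlift : LiftBound γ m)
    {W : ℝ → Matrix (Fin m) (Fin m) ℝ} {a b B : ℝ} (hWm : ∀ μ ν, Measurable fun x => W x μ ν)
    (hWp : ∀ x, (W x).PosSemidef) (hWB : ∀ x μ ν, |W x μ ν| ≤ B)
    (hWs : ∀ x, x ∉ Set.Icc a b → W x = 0) {N : ℕ} {u du : Fin N → Fin m → ℝ → ℝ}
    {k : Fin N → ℝ} (hu : ∀ i μ, IsH1 (u i μ) (du i μ))
    (horth : ∀ i l, ∫ x, ∑ μ, u i μ x * u l μ x = if i = l then 1 else 0)
    (hk : ∀ j, 0 < k j) (hanti : ∀ i j, i ≤ j → k j ≤ k i)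
    (hform : ∀ (j : Fin N) (c : Fin N → ℝ), (∀ i, j < i → c i = 0) →
      ∑ i, ∑ l, c i * c l * ((∫ x, ∑ μ, du i μ x * du l μ x) -
        ∫ x, ∑ μ, ∑ ν, u i μ x * W x μ ν * u l ν x) ≤ -k j ^ 2 * ∑ i, c i ^ 2) :
    ∑ j, k j ^ (2 * γ) ≤ L1 γ * ∫ x, trPow (γ + 1 / 2) (W x) := by
  have hp : 0 ≤ γ + 1 / 2 := by linarith
  set K := 1 + ∑ j, k j with hKdef
  have hkK : ∀ j, k j ≤ K := fun j => by
    have := single_le_sum (f := k) (fun i _ => (hk i).le) (mem_univ j)
    linarith
  have hK : 1 ≤ K := by linarith [Finset.sum_nonneg (s := univ) fun i _ => (hk i).le]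
  -- the smoothed potential and derivatives
  set Wn : ℕ → ℝ → Matrix (Fin m) (Fin m) ℝ :=
    fun M x => Matrix.of fun μ ν => steklov (fun t => W t μ ν) M x with hWn
  have hWi : ∀ μ ν, ∀ c d : ℝ, IntervalIntegrable (fun t => W t μ ν) volume c d := fun μ ν c d =>
    IntervalIntegrable.mono_fun (intervalIntegrable_const (c := B))
      (hWm μ ν).aestronglyMeasurable
      (Eventually.of_forall fun t => (Real.norm_eq_abs _).trans_le ((hWB t μ ν).trans (le_abs_self B)))
  have hWl : ∀ μ ν, LocallyIntegrable (fun t => W t μ ν) volume := fun μ ν =>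
    (locallyIntegrable_const B).mono (hWm μ ν).aestronglyMeasurable
      (Eventually.of_forall fun t => (Real.norm_eq_abs _).trans_le
        ((hWB t μ ν).trans (le_abs_self B)))
  have hWnB : ∀ M x μ ν, |Wn M x μ ν| ≤ B := fun M x μ ν => by
    simp only [hWn, Matrix.of_apply]
    exact abs_steklov_le (fun t => hWB t μ ν) M x
  have hWnc : ∀ M μ ν, Continuous fun x => Wn M x μ ν := fun M μ ν => by
    simp only [hWn, Matrix.of_apply]
    exact continuous_steklov (hWi μ ν) M
  have hWnp : ∀ M x, (Wn M x).PosSemidef := by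
    intro M x
    refine Matrix.PosSemidef.of_dotProduct_mulVec_nonneg ?_ fun c => ?_
    · ext μ ν
      simp only [hWn, Matrix.conjTranspose_apply, Matrix.of_apply, star_trivial, steklov]
      congr 1
      refine intervalIntegral.integral_congr fun t _ => ?_
      have := congrFun (congrFun (hWp t).1 μ) ν
      simpa using this
    · have e : star c ⬝ᵥ (Wn M x).mulVec c =
          steklov (fun t => ∑ μ, ∑ ν, c μ * (W t μ ν * c ν)) M x := by
        simp only [dotProduct, Matrix.mulVec, star_trivial, hWn, Matrix.of_apply, steklov, mul_sum]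
        rw [intervalIntegral.integral_finsetSum fun μ _ => by
          simpa only [← Finset.sum_fn] using IntervalIntegrable.sum univ fun ν _ =>
            ((hWi μ ν _ _).mul_const (c ν)).const_mul (c μ)]
        rw [mul_sum]
        refine sum_congr rfl fun μ _ => ?_
        rw [intervalIntegral.integral_finsetSum fun ν _ =>
          ((hWi μ ν _ _).mul_const (c ν)).const_mul (c μ), mul_sum]
        refine sum_congr rfl fun ν _ => ?_
        rw [intervalIntegral.integral_const_mul, intervalIntegral.integral_mul_const]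
        ring
      rw [e]
      refine steklov_nonneg (fun t => ?_) M x
      have := (hWp t).dotProduct_mulVec_nonneg c
      simpa [dotProduct, Matrix.mulVec, mul_sum] using this
  have hWlim : ∀ᵐ x, ∀ μ ν, Tendsto (fun M => Wn M x μ ν) atTop (𝓝 (W x μ ν)) := by
    simp only [ae_all_iff]
    intro μ ν
    simp only [hWn, Matrix.of_apply]
    exact tendsto_steklov (hWl μ ν)
  choose g hg using fun i μ => exists_continuous_approx (hu i μ).memLp_deriv
  have htr0 : ∀ x, 0 ≤ trPow (γ + 1 / 2) (W x) := fun x => trPow_nonneg (hWp x)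
  have htrm : AEStronglyMeasurable (fun x => trPow (γ + 1 / 2) (W x)) volume := by
    refine aestronglyMeasurable_of_tendsto_ae atTop
      (f := fun M x => trPow (γ + 1 / 2) (Wn M x)) (fun M => ?_) ?_
    · exact (continuousOn_univ.1 (continuousOn_trPow hp (fun x _ => hWnp M x)
        (fun x _ μ ν => hWnB M x μ ν) fun μ ν =>
          (hWnc M μ ν).continuousOn)).aestronglyMeasurable
    · filter_upwards [hWlim] with x hx
      exact tendsto_trPow hp (fun M => hWnp M x) (hWp x) (fun M => hWnB M x) (hWB x)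
        (tendsto_pi_nhds.2 fun μ => tendsto_pi_nhds.2 fun ν => hx μ ν)
  set Cw := (Fintype.card (Fin m) : ℝ) * (Fintype.card (Fin m) * B) ^ (γ + 1 / 2)
  have htrint : Integrable fun x => trPow (γ + 1 / 2) (W x) := by
    refine (show IntegrableOn (fun x => trPow (γ + 1 / 2) (W x)) (Set.Icc a b) from
      Measure.integrableOn_of_bounded (M := Cw) measure_Icc_lt_top.ne htrm
        (Eventually.of_forall fun x => by
          rw [Real.norm_of_nonneg (htr0 x)]
          exact trPow_le hp (hWp x) (hWB x))).integrable_of_forall_notMem_eq_zero fun x hx => ?_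
    refine le_antisymm (le_trans (trPow_le hp (hWp x) (B := 0) fun μ ν => ?_) ?_) (htr0 x)
    · simp [hWs x hx]
    · rw [mul_zero, Real.zero_rpow (show γ + 1 / 2 ≠ 0 by linarith), mul_zero]
  -- the entries of the full forms
  have iDD : ∀ i l, Integrable fun x => ∑ μ, du i μ x * du l μ x := fun i l =>
    integrable_finsetSum _ fun μ _ => (hu i μ).integrable_deriv_mul (hu l μ)
  have iGG : ∀ i l, Integrable fun x => ∑ μ, u i μ x * u l μ x := fun i l =>
    integrable_finsetSum _ fun μ _ => (hu i μ).integrable_mul (hu l μ)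
  have iPP : ∀ i l, Integrable fun x => ∑ μ, ∑ ν, u i μ x * W x μ ν * u l ν x := fun i l => by
    refine integrable_finsetSum _ fun μ _ => integrable_finsetSum _ fun ν _ => ?_
    refine (((hu i μ).integrable_mul (hu l ν)).norm.const_mul B).mono'
      (((hu i μ).continuous.aestronglyMeasurable.mul (hWm μ ν).aestronglyMeasurable).mul
        (hu l ν).continuous.aestronglyMeasurable) (Eventually.of_forall fun x => ?_)
    rw [mul_assoc, mul_left_comm, norm_mul, Real.norm_eq_abs (W x μ ν)]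
    exact mul_le_mul_of_nonneg_right (hWB x μ ν) (norm_nonneg _)
  set G : ℝ → ℝ → Fin N → Fin N → ℝ := fun s t i l => ∫ x in s..t, ∑ μ, u i μ x * u l μ x
  set err : (Fin N → Fin N → ℝ) → (Fin N → Fin N → ℝ) → (Fin N → Fin N → ℝ) →
      (Fin N → Fin N → ℝ) → ℝ := fun D P G0 E => ∑ i, ∑ l,
    (|D i l - ∫ x, ∑ μ, du i μ x * du l μ x| +
      |P i l - ∫ x, ∑ μ, ∑ ν, u i μ x * W x μ ν * u l ν x| +
      K ^ 2 * |G0 i l - if i = l then 1 else 0| + K * |E i l|) with herr
  suffices main : ∀ᶠ ε : ℝ in 𝓝[>] 0,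
      ∑ j, (k j ^ 2 - ε) ^ γ ≤ L1 γ * (∫ x, trPow (γ + 1 / 2) (W x)) + ε by
    have hlim : Tendsto (fun ε : ℝ => (∑ j, (k j ^ 2 - ε) ^ γ) - ε) (𝓝[>] 0)
        (𝓝 (∑ j, k j ^ (2 * γ))) := by
      have h0 : Tendsto (fun ε : ℝ => ε) (𝓝[>] (0 : ℝ)) (𝓝 0) := nhdsWithin_le_nhds
      have h1 : Tendsto (fun ε : ℝ => (∑ j, (k j ^ 2 - ε) ^ γ) - ε) (𝓝[>] 0)
          (𝓝 ((∑ j, (k j ^ 2 - 0) ^ γ) - 0)) :=
        (tendsto_finsetSum _ fun j _ =>
          ((tendsto_const_nhds (x := k j ^ 2)).sub h0).rpow_const (Or.inr (by linarith))).sub h0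
      convert h1 using 2
      simp only [sub_zero]
      exact sum_congr rfl fun j _ => by rw [← Real.rpow_natCast_mul (hk j).le]; norm_num
    refine le_of_tendsto hlim ?_
    filter_upwards [main] with ε hε
    linarith
  have hsmall : ∀ᶠ ε : ℝ in 𝓝[>] 0, ε < 1 ∧ ∀ j, ε < k j ^ 2 :=
    ((eventually_lt_nhds one_pos).and (eventually_all.2 fun j =>
      eventually_lt_nhds (pow_pos (hk j) 2))).filter_mono nhdsWithin_le_nhds
  filter_upwards [self_mem_nhdsWithin, hsmall] with ε hε0 hε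
  rw [Set.mem_Ioi] at hε0
  -- the interval
  have hRlim : Tendsto (fun n : ℕ => err
      (fun i l => ∫ x in (-(n : ℝ))..n, ∑ μ, du i μ x * du l μ x)
      (fun i l => ∫ x in (-(n : ℝ))..n, ∑ μ, ∑ ν, u i μ x * W x μ ν * u l ν x)
      (G (-(n : ℝ)) n)
      (fun i l => (∑ μ, u i μ (-(n : ℝ)) * u l μ (-(n : ℝ))) + ∑ μ, u i μ n * u l μ n))
      atTop (𝓝 0) := by
    have h1 : Tendsto (fun n : ℕ => -(n : ℝ)) atTop atBot :=
      tendsto_neg_atTop_atBot.comp tendsto_natCast_atTop_atTop
    have h2 : Tendsto (fun n : ℕ => (n : ℝ)) atTop atTop := tendsto_natCast_atTop_atTop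
    rw [show (0 : ℝ) = ∑ i : Fin N, ∑ l : Fin N, (0 + 0 + K ^ 2 * 0 + K * 0) by simp]
    refine tendsto_finsetSum _ fun i _ => tendsto_finsetSum _ fun l _ => ?_
    refine (((?_ : Tendsto _ atTop (𝓝 (0 : ℝ))).add ?_).add
      ((?_ : Tendsto _ atTop (𝓝 (0 : ℝ))).const_mul _)).add
      ((?_ : Tendsto _ atTop (𝓝 (0 : ℝ))).const_mul _)
    · simpa using ((intervalIntegral_tendsto_integral (iDD i l) h1 h2).sub_const
        (∫ x, ∑ μ, du i μ x * du l μ x)).abs
    · simpa using ((intervalIntegral_tendsto_integral (iPP i l) h1 h2).sub_const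
        (∫ x, ∑ μ, ∑ ν, u i μ x * W x μ ν * u l ν x)).abs
    · have := intervalIntegral_tendsto_integral (iGG i l) h1 h2
      rw [horth i l] at this
      simpa [G] using (this.sub_const (if i = l then (1 : ℝ) else 0)).abs
    · have e1 : Tendsto (fun n : ℕ => ∑ μ, u i μ (-(n : ℝ)) * u l μ (-(n : ℝ))) atTop
          (𝓝 (∑ _μ : Fin m, (0 : ℝ) * 0)) :=
        tendsto_finsetSum _ fun μ _ => (hu i μ).tendsto_atBot.mul (hu l μ).tendsto_atBot
      have e2 : Tendsto (fun n : ℕ => ∑ μ, u i μ (n : ℝ) * u l μ (n : ℝ)) atTop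
          (𝓝 (∑ _μ : Fin m, (0 : ℝ) * 0)) :=
        tendsto_finsetSum _ fun μ _ => (hu i μ).tendsto_atTop.mul (hu l μ).tendsto_atTop
      simpa using (e1.add e2).abs
  obtain ⟨n, hn⟩ := (hRlim.eventually (eventually_lt_nhds (half_pos hε0))).exists
  set R : ℝ := (n : ℝ) with hRdef
  have hR : -R ≤ R := neg_le_self (Nat.cast_nonneg n)
  -- the approximations on `[-R, R]`
  set U : ℕ → Fin N → ℝ → Fin m → ℝ := fun M i x μ => u i μ (-R) + ∫ t in (-R)..x, g i μ M t
  have hUlim : ∀ i μ, ∀ x ∈ Set.Icc (-R) R,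
      Tendsto (fun M => U M i x μ) atTop (𝓝 (u i μ x)) := by
    intro i μ x hx
    refine tendsto_iff_dist_tendsto_zero.2 (squeeze_zero (fun M => dist_nonneg)
      (g := fun M : ℕ => Real.sqrt (1 / ((M : ℝ) + 1)) * (R - -R + 1) / 2) (fun M => ?_) ?_)
    · have := interval_sub_le (hu i μ).memLp_deriv (hg i μ M).2.1 hx.1 hx.2
        (Real.sqrt_pos.2 (by positivity : (0 : ℝ) < 1 / ((M : ℝ) + 1)))
        (by rw [Real.sq_sqrt (by positivity)]; exact (hg i μ M).2.2)
      rw [← (hu i μ).ftc (-R) x] at this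
      rw [Real.dist_eq]
      simp only [U]
      convert this using 2
      ring
    · simpa using (tendsto_sqrt_inv.mul_const (R - -R + 1)).div_const 2
  have hUB : ∃ A, ∀ M i μ, ∀ x ∈ Set.Icc (-R) R, |U M i x μ| ≤ A := by
    choose A hA using fun i μ => (hu i μ).exists_bound
    refine ⟨(∑ i, ∑ μ, |A i μ|) + (R - -R + 1) / 2, fun M i μ x hx => ?_⟩
    set s := Real.sqrt (1 / ((M : ℝ) + 1))
    have hs : 0 < s := Real.sqrt_pos.2 (by positivity)
    have hs1 : s ≤ 1 := Real.sqrt_le_one.2 (by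
      rw [div_le_one (by positivity)]; linarith [(Nat.cast_nonneg M : (0 : ℝ) ≤ M)])
    have h1 := interval_sub_le (hu i μ).memLp_deriv (hg i μ M).2.1 hx.1 hx.2 hs
      (by rw [Real.sq_sqrt (by positivity)]; exact (hg i μ M).2.2)
    rw [← (hu i μ).ftc (-R) x] at h1
    have h2 : |u i μ x| ≤ ∑ i, ∑ μ, |A i μ| := le_trans
      (((Real.norm_eq_abs _).symm.trans_le (hA i μ x)).trans (le_abs_self _))
      (le_trans (single_le_sum (f := fun ν => |A i ν|) (fun ν _ => abs_nonneg _) (mem_univ μ))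
        (single_le_sum (f := fun l => ∑ ν, |A l ν|) (fun l _ => sum_nonneg fun ν _ => abs_nonneg _)
          (mem_univ i)))
    have h3 : s * (R - -R + 1) ≤ R - -R + 1 := mul_le_of_le_one_left (by linarith) hs1
    have e : U M i x μ = ((∫ t in (-R)..x, g i μ M t) - (u i μ x - u i μ (-R))) + u i μ x := by
      simp only [U]; ring
    rw [e]
    linarith [abs_add_le ((∫ t in (-R)..x, g i μ M t) - (u i μ x - u i μ (-R))) (u i μ x)]
  obtain ⟨A, hA⟩ := hUB
  have hUc : ∀ M i μ, Continuous fun x => U M i x μ := fun M i μ =>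
    continuous_const.add (intervalIntegral.continuous_primitive
      (fun c d => (hg i μ M).1.intervalIntegrable c d) _)
  have hUd : ∀ M i μ x, HasDerivAt (fun y => U M i y μ) (g i μ M x) x := fun M i μ x =>
    ((hg i μ M).1.integral_hasStrictDerivAt (-R) x).hasDerivAt.const_add _
  -- limits in `M`
  have hIoc : Set.uIoc (-R) R ⊆ Set.Icc (-R) R := by
    rw [Set.uIoc_of_le hR]; exact Set.Ioc_subset_Icc_self
  have hM : Tendsto (fun M => err
      (fun i l => ∫ x in (-R)..R, ∑ μ, g i μ M x * g l μ M x)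
      (fun i l => ∫ x in (-R)..R, ∑ μ, ∑ ν, U M i x μ * Wn M x μ ν * U M l x ν)
      (fun i l => ∫ x in (-R)..R, ∑ μ, U M i x μ * U M l x μ)
      (fun i l => (∑ μ, U M i (-R) μ * U M l (-R) μ) + ∑ μ, U M i R μ * U M l R μ)) atTop
      (𝓝 (err (fun i l => ∫ x in (-R)..R, ∑ μ, du i μ x * du l μ x)
        (fun i l => ∫ x in (-R)..R, ∑ μ, ∑ ν, u i μ x * W x μ ν * u l ν x) (G (-R) R)
        (fun i l => (∑ μ, u i μ (-R) * u l μ (-R)) + ∑ μ, u i μ R * u l μ R))) := by
    refine tendsto_finsetSum _ fun i _ => tendsto_finsetSum _ fun l _ => ?_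
    refine (((Tendsto.sub_const ?_ _).abs.add (Tendsto.sub_const ?_ _).abs).add
      ((Tendsto.sub_const ?_ _).abs.const_mul _)).add ((Tendsto.abs ?_).const_mul _)
    · dsimp only
      rw [intervalIntegral.integral_finsetSum fun μ _ =>
          ((hu i μ).integrable_deriv_mul (hu l μ)).intervalIntegrable]
      refine Tendsto.congr (fun M => (intervalIntegral.integral_finsetSum fun μ _ =>
          ((hg i μ M).2.1.integrable_mul (hg l μ M).2.1).intervalIntegrable).symm) ?_
      exact tendsto_finsetSum _ fun μ _ => tendsto_integral_mul_approx (hu i μ).memLp_deriv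
        (hu l μ).memLp_deriv (fun M => (hg i μ M).2.1) (fun M => (hg l μ M).2.1)
        (fun M => (hg i μ M).2.2) (fun M => (hg l μ M).2.2) _ _
    · refine intervalIntegral.tendsto_integral_filter_of_dominated_convergence
        (fun _ => ∑ _μ : Fin m, ∑ _ν : Fin m, A * B * A) ?_ ?_ intervalIntegrable_const ?_
      · exact Eventually.of_forall fun M => (continuous_finsetSum _ fun μ _ =>
          continuous_finsetSum _ fun ν _ => ((hUc M i μ).mul (hWnc M μ ν)).mul
            (hUc M l ν)).aestronglyMeasurable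
      · refine Eventually.of_forall fun M => Eventually.of_forall fun x hx => ?_
        rw [Real.norm_eq_abs]
        refine (abs_sum_le_sum_abs _ _).trans (sum_le_sum fun μ _ => (abs_sum_le_sum_abs _ _).trans
          (sum_le_sum fun ν _ => ?_))
        have h1 := hA M i μ x (hIoc hx)
        have h2 := hA M l ν x (hIoc hx)
        rw [abs_mul, abs_mul]
        exact mul_le_mul (mul_le_mul h1 (hWnB M x μ ν) (abs_nonneg _) ((abs_nonneg _).trans h1))
          h2 (abs_nonneg _) (mul_nonneg ((abs_nonneg _).trans h1)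
            ((abs_nonneg _).trans (hWnB M x μ ν)))
      · filter_upwards [hWlim] with x hx hxI
        exact tendsto_finsetSum _ fun μ _ => tendsto_finsetSum _ fun ν _ =>
          ((hUlim i μ x (hIoc hxI)).mul (hx μ ν)).mul (hUlim l ν x (hIoc hxI))
    · refine intervalIntegral.tendsto_integral_filter_of_dominated_convergence
        (fun _ => ∑ _μ : Fin m, A * A) ?_ ?_ intervalIntegrable_const ?_
      · exact Eventually.of_forall fun M => (continuous_finsetSum _ fun μ _ =>
          (hUc M i μ).mul (hUc M l μ)).aestronglyMeasurable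
      · refine Eventually.of_forall fun M => Eventually.of_forall fun x hx => ?_
        rw [Real.norm_eq_abs]
        refine (abs_sum_le_sum_abs _ _).trans (sum_le_sum fun μ _ => ?_)
        rw [abs_mul]
        exact mul_le_mul (hA M i μ x (hIoc hx)) (hA M l μ x (hIoc hx)) (abs_nonneg _)
          ((abs_nonneg _).trans (hA M i μ x (hIoc hx)))
      · exact Eventually.of_forall fun x hx => tendsto_finsetSum _ fun μ _ =>
          (hUlim i μ x (hIoc hx)).mul (hUlim l μ x (hIoc hx))
    · exact (tendsto_finsetSum _ fun μ _ => (hUlim i μ _ (left_mem_Icc.2 hR)).mul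
        (hUlim l μ _ (left_mem_Icc.2 hR))).add (tendsto_finsetSum _ fun μ _ =>
        (hUlim i μ _ (right_mem_Icc.2 hR)).mul (hUlim l μ _ (right_mem_Icc.2 hR)))
  have hT : Tendsto (fun M => ∫ x in (-R)..R, trPow (γ + 1 / 2) (Wn M x)) atTop
      (𝓝 (∫ x in (-R)..R, trPow (γ + 1 / 2) (W x))) := by
    refine intervalIntegral.tendsto_integral_filter_of_dominated_convergence (fun _ => Cw) ?_ ?_
      intervalIntegrable_const ?_
    · exact Eventually.of_forall fun M => (continuousOn_univ.1 (continuousOn_trPow hp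
        (fun x _ => hWnp M x) (fun x _ μ ν => hWnB M x μ ν) fun μ ν =>
          (hWnc M μ ν).continuousOn)).aestronglyMeasurable
    · refine Eventually.of_forall fun M => Eventually.of_forall fun x _ => ?_
      rw [Real.norm_of_nonneg (trPow_nonneg (hWnp M x))]
      exact trPow_le hp (hWnp M x) (hWnB M x)
    · filter_upwards [hWlim] with x hx _
      exact tendsto_trPow hp (fun M => hWnp M x) (hWp x) (fun M => hWnB M x) (hWB x)
        (tendsto_pi_nhds.2 fun μ => tendsto_pi_nhds.2 fun ν => hx μ ν)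
  have hTle : L1 γ * ∫ x in (-R)..R, trPow (γ + 1 / 2) (W x) ≤
      L1 γ * ∫ x, trPow (γ + 1 / 2) (W x) := by
    refine mul_le_mul_of_nonneg_left ?_ ?_
    · rw [intervalIntegral.integral_of_le hR]
      exact setIntegral_le_integral htrint (Eventually.of_forall htr0)
    · unfold L1 Lcl
      have := Real.Gamma_pos_of_pos (show 0 < γ + 1 by linarith)
      have := Real.Gamma_pos_of_pos (show 0 < γ + 3 / 2 by linarith)
      have := Real.rpow_nonneg (div_nonneg (show 0 ≤ γ - 1 / 2 by linarith)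
        (show 0 ≤ γ + 1 / 2 by linarith)) (γ - 1 / 2)
      positivity
  have hev := (hM.eventually (eventually_lt_nhds (show _ < ε by
    exact lt_of_lt_of_le hn (by linarith)))).and
    ((hT.const_mul (L1 γ)).eventually (eventually_lt_nhds (lt_of_le_of_lt hTle
      (lt_add_of_pos_right _ hε0))))
  obtain ⟨M, hMe, hMT⟩ := hev.exists
  -- apply the bound on the interval
  set D := fun i l => ∫ x in (-R)..R, ∑ μ, g i μ M x * g l μ M x
  set P := fun i l => ∫ x in (-R)..R, ∑ μ, ∑ ν, U M i x μ * Wn M x μ ν * U M l x ν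
  set G0 := fun i l => ∫ x in (-R)..R, ∑ μ, U M i x μ * U M l x μ
  set E0 := fun i l => (∑ μ, U M i (-R) μ * U M l (-R) μ) + ∑ μ, U M i R μ * U M l R μ
  have eG : ∀ c : Fin N → ℝ, ∫ x in (-R)..R, ∑ μ, (∑ i, c i * U M i x μ) ^ 2 =
      ∑ i, ∑ l, c i * c l * G0 i l := fun c => by
    simp only [expand_sq]
    exact integral_quad c (F := fun i l x => ∑ μ, U M i x μ * U M l x μ) fun i l =>
      (continuous_finsetSum _ fun μ _ => (hUc M i μ).mul (hUc M l μ)).intervalIntegrable _ _
  have herrD : ∀ i l, |G0 i l - if i = l then 1 else 0| ≤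
      |D i l - ∫ x, ∑ μ, du i μ x * du l μ x| +
        |P i l - ∫ x, ∑ μ, ∑ ν, u i μ x * W x μ ν * u l ν x| +
        K ^ 2 * |G0 i l - if i = l then 1 else 0| + K * |E0 i l| := fun i l => by
    have h1 : |G0 i l - if i = l then 1 else 0| ≤ K ^ 2 * |G0 i l - if i = l then 1 else 0| :=
      le_mul_of_one_le_left (abs_nonneg _) (one_le_pow₀ hK)
    have h2 : 0 ≤ K * |E0 i l| := by positivity
    linarith [abs_nonneg (D i l - ∫ x, ∑ μ, du i μ x * du l μ x),
      abs_nonneg (P i l - ∫ x, ∑ μ, ∑ ν, u i μ x * W x μ ν * u l ν x)]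
  set k' := fun j => Real.sqrt (k j ^ 2 - ε)
  have hk'0 : ∀ j, 0 < k' j := fun j => Real.sqrt_pos.2 (sub_pos.2 (hε.2 j))
  have hk'2 : ∀ j, k' j ^ 2 = k j ^ 2 - ε := fun j => Real.sq_sqrt (sub_pos.2 (hε.2 j)).le
  have hk'K : ∀ j, k' j ≤ K := fun j =>
    ((Real.sqrt_le_left (hk j).le).2 (by linarith)).trans (hkK j)
  have hdiag : ∀ c : Fin N → ℝ,
      ∑ i, ∑ l, c i * c l * (if i = l then (1 : ℝ) else 0) = ∑ i, c i ^ 2 := fun c => by
    simp [sq]
  have h := hlift N (-R) R (Wn M) (U M) (fun i x μ => g i μ M x) k' (1 - ε) hR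
    (fun μ ν => (hWnc M μ ν).continuousOn) (fun x _ => hWnp M x)
    (fun i μ => (hg i μ M).1.continuousOn) (fun i μ x _ => (hUd M i μ x).hasDerivWithinAt)
    hk'0 (fun i j hij => Real.sqrt_le_sqrt (by
      nlinarith [hanti i j hij, hk j, hk i])) (by linarith [hε.1]) (fun c => ?_) (fun j c hc => ?_)
  · refine le_trans (le_of_eq (sum_congr rfl fun j _ => ?_)) (h.trans hMT.le)
    simp only [k']
    rw [Real.sqrt_eq_rpow, ← Real.rpow_mul (sub_pos.2 (hε.2 j)).le]
    congr 1
    ring
  · rw [eG c]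
    have h1 : ∑ i, ∑ l, c i * c l * G0 i l = (∑ i, c i ^ 2) +
        ∑ i, ∑ l, c i * c l * (G0 i l - if i = l then 1 else 0) := by
      rw [← hdiag c]; simp only [mul_sub, sum_sub_distrib]; ring
    have h2 := quad_abs_le c fun i l => G0 i l - if i = l then 1 else 0
    have h3 : ∑ i, ∑ l, |G0 i l - if i = l then 1 else 0| ≤ ε :=
      (sum_le_sum fun i _ => sum_le_sum fun l _ => herrD i l).trans hMe.le
    have h4 := mul_le_mul_of_nonneg_right h3 (Finset.sum_nonneg (s := univ) fun i _ => sq_nonneg (c i))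
    rw [abs_le] at h2
    linarith [h2.1]
  · have e1 : ∫ x in (-R)..R, ((∑ μ, (∑ i, c i * g i μ M x) ^ 2) -
        ∑ μ, ∑ ν, (∑ i, c i * U M i x μ) * Wn M x μ ν * ∑ i, c i * U M i x ν) =
        ∑ i, ∑ l, c i * c l * (D i l - P i l) := by
      have iD : ∀ i l, IntervalIntegrable (fun x => ∑ μ, g i μ M x * g l μ M x) volume (-R) R :=
        fun i l => (continuous_finsetSum _ fun μ _ =>
          (hg i μ M).1.mul (hg l μ M).1).intervalIntegrable _ _
      have iP : ∀ i l, IntervalIntegrable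
          (fun x => ∑ μ, ∑ ν, U M i x μ * Wn M x μ ν * U M l x ν) volume (-R) R :=
        fun i l => (continuous_finsetSum _ fun μ _ => continuous_finsetSum _ fun ν _ =>
          ((hUc M i μ).mul (hWnc M μ ν)).mul (hUc M l ν)).intervalIntegrable _ _
      have hpt : ∀ x, ((∑ μ, (∑ i, c i * g i μ M x) ^ 2) -
          ∑ μ, ∑ ν, (∑ i, c i * U M i x μ) * Wn M x μ ν * ∑ i, c i * U M i x ν) =
          ∑ i, ∑ l, c i * c l * ((∑ μ, g i μ M x * g l μ M x) -
            ∑ μ, ∑ ν, U M i x μ * Wn M x μ ν * U M l x ν) := fun x => by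
        rw [expand_sq, expand_pot]; simp only [mul_sub, sum_sub_distrib]
      simp only [hpt]
      rw [integral_quad c fun i l => (iD i l).sub (iP i l)]
      exact sum_congr rfl fun i _ => sum_congr rfl fun l _ => by
        rw [intervalIntegral.integral_sub (iD i l) (iP i l)]
    rw [e1, eG c, expand_sq c, expand_sq c]
    set Dt := fun i l => ∫ x, ∑ μ, du i μ x * du l μ x
    set Pt := fun i l => ∫ x, ∑ μ, ∑ ν, u i μ x * W x μ ν * u l ν x
    have gen : ∀ A B : Fin N → Fin N → ℝ, (∑ i, ∑ l, c i * c l * (D i l - P i l)) +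
        k' j ^ 2 * (∑ i, ∑ l, c i * c l * G0 i l) +
        k' j * ((∑ i, ∑ l, c i * c l * A i l) + ∑ i, ∑ l, c i * c l * B i l) =
        (∑ i, ∑ l, c i * c l * (Dt i l - Pt i l)) + k' j ^ 2 * (∑ i, c i ^ 2) +
          ∑ i, ∑ l, c i * c l * ((D i l - Dt i l) - (P i l - Pt i l) +
            k' j ^ 2 * (G0 i l - if i = l then 1 else 0) + k' j * (A i l + B i l)) := by
      intro A B
      rw [← hdiag c]
      simp only [mul_sum, ← sum_add_distrib]
      exact sum_congr rfl fun i _ => sum_congr rfl fun l _ => by ring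
    have hdec := gen (fun i l => ∑ μ, U M i (-R) μ * U M l (-R) μ)
      (fun i l => ∑ μ, U M i R μ * U M l R μ)
    rw [hdec]
    have h2 := (le_abs_self _).trans (quad_abs_le c fun i l => (D i l - Dt i l) - (P i l - Pt i l) +
      k' j ^ 2 * (G0 i l - if i = l then 1 else 0) + k' j * E0 i l)
    have h3 : ∑ i, ∑ l, |(D i l - Dt i l) - (P i l - Pt i l) +
        k' j ^ 2 * (G0 i l - if i = l then 1 else 0) + k' j * E0 i l| ≤ ε := by
      refine le_trans (sum_le_sum fun i _ => sum_le_sum fun l _ => ?_) hMe.le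
      refine (abs_add_le _ _).trans (add_le_add ((abs_add_le _ _).trans
        (add_le_add (abs_sub _ _) ?_)) ?_)
      · rw [abs_mul, abs_of_nonneg (sq_nonneg (k' j))]
        exact mul_le_mul_of_nonneg_right (pow_le_pow_left₀ (hk'0 j).le (hk'K j) 2) (abs_nonneg _)
      · rw [abs_mul, abs_of_nonneg (hk'0 j).le]
        exact mul_le_mul_of_nonneg_right (hk'K j) (abs_nonneg _)
    have h4 := mul_le_mul_of_nonneg_right h3 (Finset.sum_nonneg (s := univ) fun i _ => sq_nonneg (c i))
    have h5 := hform j c hc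
    rw [hk'2 j] at h2 h4 ⊢
    simp only [Dt, Pt, E0] at h2 h4 ⊢
    linarith

/-! ## The interfaces -/

lemma isH1_coord {m : ℕ} {ψ dψ : ℝ → EuclideanSpace ℝ (Fin m)} (h : IsH1 ψ dψ) (μ : Fin m) :
    IsH1 (fun x => ψ x μ) (fun x => dψ x μ) where
  memLp := (EuclideanSpace.proj (𝕜 := ℝ) μ).comp_memLp' h.memLp
  memLp_deriv := (EuclideanSpace.proj (𝕜 := ℝ) μ).comp_memLp' h.memLp_deriv
  ftc a b := by
    have e := (EuclideanSpace.proj (𝕜 := ℝ) μ).intervalIntegral_comp_comm (h.intervalIntegrable a b)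
    simp only [PiLp.proj_apply] at e
    rw [e, ← h.ftc a b]
    simp

/-- The matrix core bound. -/
theorem mCoreBound_of_lift {γ : ℝ} (hγ : 1 / 2 < γ) (h : ∀ m, LiftBound γ m) : MCoreBound γ := by
  intro m W a b B hm hp hB hs N ψ dψ k hψ horth hk hanti hform
  have e1 : ∀ (x y : EuclideanSpace ℝ (Fin m)), ⟪x, y⟫_ℝ = ∑ μ, x μ * y μ := fun x y => by
    simp [PiLp.inner_apply, mul_comm]
  have e2 : ∀ (A : Matrix (Fin m) (Fin m) ℝ) (x y : EuclideanSpace ℝ (Fin m)),
      ⟪x, Matrix.toEuclideanLin A y⟫_ℝ = ∑ μ, ∑ ν, x μ * A μ ν * y ν := fun A x y => by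
    simp [e1, Matrix.toLpLin_apply, Matrix.mulVec, dotProduct, mul_sum, mul_assoc]
  refine coord_core hγ (h m) hm hp hB hs (u := fun i μ x => ψ i x μ) (du := fun i μ x => dψ i x μ)
    (fun i μ => isH1_coord (hψ i) μ) (fun i l => by simpa only [e1] using horth i l) hk hanti
    fun j c hc => ?_
  have := hform j c hc
  simp only [mForm, e2] at this
  simpa only [e1] using this

/-- The scalar core bound. -/
theorem sCoreBound_of_lift {γ : ℝ} (hγ : 1 / 2 < γ) (h : LiftBound γ 1) : SCoreBound γ := by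
  intro W a b B hm hp hB hs N ψ dψ k hψ horth hk hanti hform
  have htr : ∀ x, trPow (γ + 1 / 2) (Matrix.of fun _ _ : Fin 1 => W x) = W x ^ (γ + 1 / 2) := by
    intro x
    have hH : (Matrix.of fun _ _ : Fin 1 => W x).IsHermitian := by ext i j; simp
    rw [trPow_eq hH]
    have e := hH.trace_eq_sum_eigenvalues
    simp [Matrix.trace] at e ⊢
    rw [← e]
  have h' := coord_core hγ h (W := fun x => Matrix.of fun _ _ => W x) (a := a) (b := b) (B := B)
    (fun μ ν => by simpa using hm) (fun x => ?_)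
    (fun x μ ν => by simpa [abs_of_nonneg (hp x)] using hB x)
    (fun x hx => by ext; simp [hs x hx])
    (u := fun i _ x => ψ i x) (du := fun i _ x => dψ i x) (fun i _ => hψ i)
    (fun i l => by simpa using horth i l) hk hanti (fun j c hc => ?_)
  · simpa only [htr] using h'
  · refine Matrix.PosSemidef.of_dotProduct_mulVec_nonneg (by ext i l; simp) fun c => ?_
    have : 0 ≤ c 0 * (W x * c 0) := by
      rw [mul_left_comm]; exact mul_nonneg (hp x) (mul_self_nonneg _)
    simpa [dotProduct, Matrix.mulVec] using this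
  · have := hform j c hc
    simpa [sForm, mul_assoc, mul_left_comm (W _)] using this

end Vale.Agent.P371
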