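import Vale.Agent.P371.Defs

/-!
# P371: the soliton attains the one-bound-state constant

For `q = γ - 1/2` the function `cosh x ^ (-q)` is a bound state with energy `-q ^ 2` of the
potential `q (q + 1) / cosh x ^ 2`; the two integrals are Beta integrals.
-/

open MeasureTheory Real Set

namespace Vale.Agent.P371

/-- Negative powers of the hyperbolic cosine. -/
noncomputable def coshPow (r x : ℝ) : ℝ := cosh x ^ (-r)

lemma coshPow_pos (r x : ℝ) : 0 < coshPow r x := rpow_pos_of_pos (cosh_pos x) _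

lemma coshPow_add (r s x : ℝ) : coshPow (r + s) x = coshPow r x * coshPow s x := by
  rw [coshPow, coshPow, coshPow, neg_add, rpow_add (cosh_pos x)]

lemma coshPow_sq (r x : ℝ) : coshPow r x ^ 2 = coshPow (2 * r) x := by
  rw [sq, ← coshPow_add, two_mul]

lemma continuous_coshPow (r : ℝ) : Continuous (coshPow r) :=
  continuous_cosh.rpow_const fun x => Or.inl (cosh_pos x).ne'

lemma integrable_exp_neg_mul_abs {r : ℝ} (hr : 0 < r) :
    Integrable fun x : ℝ => exp (-(r * |x|)) := by
  rw [← integrableOn_univ, ← Iic_union_Ioi (a := (0 : ℝ))]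
  refine IntegrableOn.union ?_ ?_
  · refine (integrableOn_exp_mul_Iic hr 0).congr_fun (fun x hx => ?_) measurableSet_Iic
    simp only [abs_of_nonpos (mem_Iic.1 hx)]
    ring_nf
  · refine (exp_neg_integrableOn_Ioi 0 hr).congr_fun (fun x hx => ?_) measurableSet_Ioi
    simp only [abs_of_pos (mem_Ioi.1 hx)]
    ring_nf

lemma coshPow_le {r : ℝ} (hr : 0 ≤ r) (x : ℝ) :
    coshPow r x ≤ 2 ^ r * exp (-(r * |x|)) := by
  have h : exp |x| / 2 ≤ cosh x := by
    rw [← cosh_abs x, cosh_eq]
    linarith [exp_pos (-|x|)]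
  refine (rpow_le_rpow_of_nonpos (by positivity) h (by linarith)).trans (le_of_eq ?_)
  rw [div_rpow (exp_pos _).le two_pos.le, ← exp_mul, rpow_neg two_pos.le, div_inv_eq_mul,
    mul_comm, mul_neg, mul_comm |x| r]

lemma integrable_coshPow {r : ℝ} (hr : 0 < r) : Integrable (coshPow r) :=
  ((integrable_exp_neg_mul_abs hr).const_mul ((2 : ℝ) ^ r)).mono'
    (continuous_coshPow r).aestronglyMeasurable
    (Filter.Eventually.of_forall fun x => by
      rw [norm_of_nonneg (coshPow_pos r x).le]
      exact coshPow_le hr.le x)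

lemma sigmoid_mul_one_sub (x : ℝ) :
    sigmoid (2 * x) * (1 - sigmoid (2 * x)) = (4 * cosh x ^ 2)⁻¹ := by
  rw [← sigmoid_neg, sigmoid_def, sigmoid_def, ← mul_inv, cosh_eq, neg_neg]
  congr 1
  have h1 : exp (2 * x) = exp x * exp x := by rw [← exp_add]; ring_nf
  have h2 : exp (-(2 * x)) = exp (-x) * exp (-x) := by rw [← exp_add]; ring_nf
  have h3 : exp x * exp (-x) = 1 := by rw [← exp_add]; simp
  rw [h1, h2]
  linear_combination (exp x * exp (-x) - 1) * h3

lemma hasDerivAt_sigmoid_two (x : ℝ) :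
    HasDerivAt (fun y => sigmoid (2 * y)) (2 * (4 * cosh x ^ 2)⁻¹) x := by
  rw [← sigmoid_mul_one_sub]
  have h : HasDerivAt (fun y : ℝ => (1 + exp (-(2 * y)))⁻¹)
      (-(exp (-(2 * x)) * -2) / (1 + exp (-(2 * x))) ^ 2) x := by
    have h1 : HasDerivAt (fun y : ℝ => -(2 * y)) (-2) x := by
      simpa [neg_mul] using (hasDerivAt_id x).const_mul (-2 : ℝ)
    exact ((h1.exp).const_add 1).inv (by positivity)
  have e : (fun y => sigmoid (2 * y)) = fun y : ℝ => (1 + exp (-(2 * y)))⁻¹ := rfl
  rw [e]
  convert h using 1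
  rw [sigmoid_def]
  have : 0 < exp (-(2 * x)) := exp_pos _
  field_simp
  ring

lemma integral_Ioo_rpow_mul_rpow {a b : ℝ} (ha : 0 < a) (hb : 0 < b) :
    ∫ x in Ioo (0 : ℝ) 1, x ^ (a - 1) * (1 - x) ^ (b - 1) = ProbabilityTheory.beta a b := by
  rw [ProbabilityTheory.beta_eq_betaIntegralReal a b ha hb, Complex.betaIntegral,
    intervalIntegral.integral_of_le (by norm_num), ← integral_Ioc_eq_integral_Ioo,
    ← RCLike.re_to_complex, ← integral_re]
  · refine setIntegral_congr_fun measurableSet_Ioc fun x ⟨hx1, hx2⟩ => ?_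
    norm_cast
    rw [← Complex.ofReal_cpow, ← Complex.ofReal_cpow, RCLike.re_to_complex,
      Complex.re_mul_ofReal, Complex.ofReal_re]
    all_goals linarith
  convert! Complex.betaIntegral_convergent (u := a) (v := b) (by simpa) (by simpa)
  rw [intervalIntegrable_iff_integrableOn_Ioc_of_le (by simp), IntegrableOn]

lemma integral_coshPow {r : ℝ} (hr : 0 < r) :
    ∫ x, coshPow (2 * r) x = sqrt π * Gamma r / Gamma (r + 1 / 2) := by
  have himg : (fun y => sigmoid (2 * y)) '' univ = Ioo (0 : ℝ) 1 := by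
    rw [image_univ, ← range_sigmoid]
    refine Function.Surjective.range_comp (fun y => ⟨y / 2, ?_⟩) sigmoid
    ring
  have h := integral_image_eq_integral_abs_deriv_smul MeasurableSet.univ
    (fun x _ => (hasDerivAt_sigmoid_two x).hasDerivWithinAt)
    (fun a _ b _ hab => by simpa using sigmoid_injective hab)
    (fun u : ℝ => u ^ (r - 1) * (1 - u) ^ (r - 1))
  rw [himg, integral_Ioo_rpow_mul_rpow hr hr, Measure.restrict_univ] at h
  have key : ∀ x : ℝ, |2 * (4 * cosh x ^ 2)⁻¹| •
      (sigmoid (2 * x) ^ (r - 1) * (1 - sigmoid (2 * x)) ^ (r - 1)) =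
        2 / 4 ^ r * coshPow (2 * r) x := by
    intro x
    have hc := cosh_pos x
    set s := (4 * cosh x ^ 2)⁻¹ with hs
    have hs0 : 0 < s := by positivity
    rw [smul_eq_mul, abs_of_pos (by positivity), ← mul_rpow (sigmoid_nonneg _)
      (sub_nonneg.2 (sigmoid_le_one _)), sigmoid_mul_one_sub, ← hs, rpow_sub_one hs0.ne']
    have e : s ^ r = coshPow (2 * r) x / 4 ^ r := by
      rw [hs, inv_rpow (by positivity), mul_rpow (by norm_num) (by positivity), ← rpow_natCast,
        ← rpow_mul hc.le, coshPow, rpow_neg hc.le, mul_inv, div_eq_mul_inv, mul_comm]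
      norm_num
    rw [e]
    field_simp
  simp only [key, integral_const_mul, ProbabilityTheory.beta] at h
  have h4 : (0 : ℝ) < 4 ^ r := by positivity
  have hI : ∫ x, coshPow (2 * r) x = 4 ^ r / 2 * (Gamma r * Gamma r / Gamma (r + r)) := by
    rw [h]; field_simp
  have hd := Gamma_mul_Gamma_add_half r
  have g1 := Gamma_pos_of_pos hr
  have g2 : 0 < Gamma (r + 1 / 2) := Gamma_pos_of_pos (by linarith)
  have g3 : 0 < Gamma (r + r) := Gamma_pos_of_pos (by linarith)
  have e1 : (2 : ℝ) ^ (1 - 2 * r) = 2 / 4 ^ r := by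
    rw [rpow_sub two_pos, rpow_one, rpow_mul two_pos.le]
    norm_num
  rw [e1, two_mul] at hd
  rw [hI]
  field_simp at hd ⊢
  linear_combination hd

/-- The derivative of `cosh ^ (-q)`. -/
noncomputable def solitonDeriv (q x : ℝ) : ℝ := -q * tanh x * coshPow q x

lemma hasDerivAt_coshPow (q x : ℝ) : HasDerivAt (coshPow q) (solitonDeriv q x) x := by
  refine ((hasDerivAt_cosh x).rpow_const (p := -q) (Or.inl (cosh_pos x).ne')).congr_deriv ?_
  rw [solitonDeriv, coshPow, tanh_eq_sinh_div_cosh, rpow_sub_one (cosh_pos x).ne']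
  ring

lemma hasDerivAt_tanh' (x : ℝ) : HasDerivAt tanh (1 - tanh x ^ 2) x := by
  have e : tanh = fun y => sinh y / cosh y := funext tanh_eq_sinh_div_cosh
  rw [e]
  refine ((hasDerivAt_sinh x).div (hasDerivAt_cosh x) (cosh_pos x).ne').congr_deriv ?_
  have := (cosh_pos x).ne'
  field_simp

lemma continuous_tanh' : Continuous tanh :=
  continuous_iff_continuousAt.2 fun x => (hasDerivAt_tanh' x).continuousAt

lemma abs_tanh_le_one (x : ℝ) : |tanh x| ≤ 1 := by
  rw [tanh_eq_sinh_div_cosh, abs_div, abs_of_pos (cosh_pos x), div_le_one (cosh_pos x), abs_le]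
  constructor <;> rw [sinh_eq, cosh_eq] <;> linarith [exp_pos x, exp_pos (-x)]

lemma one_sub_tanh_sq (x : ℝ) : 1 - tanh x ^ 2 = (cosh x ^ 2)⁻¹ := by
  have := (cosh_pos x).ne'
  rw [tanh_eq_sinh_div_cosh]
  field_simp
  linarith [cosh_sq x]

lemma continuous_solitonDeriv (q : ℝ) : Continuous (solitonDeriv q) :=
  (continuous_const.mul continuous_tanh').mul (continuous_coshPow q)

lemma abs_solitonDeriv_le {q : ℝ} (hq : 0 ≤ q) (x : ℝ) :
    |solitonDeriv q x| ≤ q * coshPow q x := by
  rw [solitonDeriv, abs_mul, abs_mul, abs_neg, abs_of_nonneg hq, abs_of_pos (coshPow_pos q x)]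
  exact mul_le_mul_of_nonneg_right (mul_le_of_le_one_right hq (abs_tanh_le_one x))
    (coshPow_pos q x).le

lemma isH1_const_mul_coshPow {q : ℝ} (hq : 0 < q) (c : ℝ) :
    IsH1 (fun x => c * coshPow q x) (fun x => c * solitonDeriv q x) where
  memLp := by
    rw [memLp_two_iff_integrable_sq (by
      exact (continuous_const.mul (continuous_coshPow q)).aestronglyMeasurable)]
    simpa only [mul_pow, coshPow_sq] using
      (integrable_coshPow (mul_pos two_pos hq)).const_mul (c ^ 2)
  memLp_deriv := by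
    rw [memLp_two_iff_integrable_sq (by
      exact (continuous_const.mul (continuous_solitonDeriv q)).aestronglyMeasurable)]
    refine ((integrable_coshPow (mul_pos two_pos hq)).const_mul (c ^ 2 * q ^ 2)).mono'
      ((continuous_const.mul (continuous_solitonDeriv q)).pow 2).aestronglyMeasurable
      (Filter.Eventually.of_forall fun x => ?_)
    rw [norm_eq_abs, abs_pow, abs_mul, mul_pow, sq_abs, ← coshPow_sq, mul_assoc, ← mul_pow q]
    exact mul_le_mul_of_nonneg_left (pow_le_pow_left₀ (abs_nonneg _)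
      (abs_solitonDeriv_le hq.le x) 2) (sq_nonneg c)
  ftc a b := by
    rw [intervalIntegral.integral_eq_sub_of_hasDerivAt
      (fun x _ => (hasDerivAt_coshPow q x).const_mul c)
      ((continuous_const.mul (continuous_solitonDeriv q)).intervalIntegrable a b)]

/-- The soliton potential. -/
noncomputable def solitonPot (q x : ℝ) : ℝ := q * (q + 1) * (cosh x ^ 2)⁻¹

lemma integral_energy {q : ℝ} (hq : 0 < q) :
    (∫ x, solitonDeriv q x ^ 2) - ∫ x, solitonPot q x * coshPow q x ^ 2 =
      -q ^ 2 * ∫ x, coshPow (2 * q) x := by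
  have hI := integrable_coshPow (mul_pos two_pos hq)
  have hG : ∀ x, HasDerivAt (fun y => -q * tanh y * coshPow (2 * q) y)
      (solitonDeriv q x ^ 2 - solitonPot q x * coshPow q x ^ 2 + q ^ 2 * coshPow (2 * q) x) x := by
    intro x
    refine (((hasDerivAt_tanh' x).const_mul (-q)).mul
      (hasDerivAt_coshPow (2 * q) x)).congr_deriv ?_
    rw [solitonPot, ← one_sub_tanh_sq, solitonDeriv, solitonDeriv, mul_pow _ (coshPow q x),
      coshPow_sq]
    ring
  have ht : ∀ x, tanh x ^ 2 ≤ 1 := fun x => (sq_le_one_iff_abs_le_one _).2 (abs_tanh_le_one x)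
  have i1 : Integrable fun x => solitonDeriv q x ^ 2 := by
    refine (hI.const_mul (q ^ 2)).mono' ((continuous_solitonDeriv q).pow 2).aestronglyMeasurable
      (Filter.Eventually.of_forall fun x => ?_)
    rw [norm_eq_abs, abs_pow, ← coshPow_sq, ← mul_pow]
    exact pow_le_pow_left₀ (abs_nonneg _) (abs_solitonDeriv_le hq.le x) 2
  have i2 : Integrable fun x => solitonPot q x * coshPow q x ^ 2 := by
    refine (hI.const_mul (q * (q + 1))).mono' ?_ (Filter.Eventually.of_forall fun x => ?_)
    · exact ((continuous_const.mul ((continuous_cosh.pow 2).inv₀ fun x =>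
        (pow_pos (cosh_pos x) 2).ne')).mul ((continuous_coshPow q).pow 2)).aestronglyMeasurable
    · have h0 : 0 ≤ q * (q + 1) := by positivity
      have h1 := coshPow_pos (2 * q) x
      rw [solitonPot, ← one_sub_tanh_sq, coshPow_sq, norm_eq_abs, abs_mul, abs_mul,
        abs_of_nonneg h0, abs_of_nonneg (sub_nonneg.2 (ht x)), abs_of_pos h1]
      exact mul_le_mul_of_nonneg_right (mul_le_of_le_one_right h0
        (sub_le_self _ (sq_nonneg _))) h1.le
  have i3 : Integrable fun y => -q * tanh y * coshPow (2 * q) y := by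
    refine (hI.const_mul q).mono'
      ((continuous_const.mul continuous_tanh').mul (continuous_coshPow _)).aestronglyMeasurable
      (Filter.Eventually.of_forall fun x => ?_)
    rw [norm_eq_abs, abs_mul, abs_mul, abs_neg, abs_of_pos hq, abs_of_pos (coshPow_pos _ x)]
    exact mul_le_mul_of_nonneg_right (mul_le_of_le_one_right hq.le (abs_tanh_le_one x))
      (coshPow_pos _ x).le
  have h := integral_eq_zero_of_hasDerivAt_of_integrable hG ((i1.sub i2).add (hI.const_mul _)) i3
  have e := integral_add (i1.sub i2) (hI.const_mul (q ^ 2))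
  simp only [Pi.sub_apply] at e
  rw [e, integral_sub i1 i2, integral_const_mul] at h
  linarith

/-- The one-bound-state constant is attained. -/
theorem L1_mem_sLTRatios {γ : ℝ} (hγ : 1 / 2 < γ) : L1 γ ∈ sLTRatios γ := by
  set q := γ - 1 / 2 with hqdef
  have hq : 0 < q := by linarith
  have hp : γ + 1 / 2 = q + 1 := by linarith
  have hA : 0 < q * (q + 1) := by positivity
  have hW : ∀ x, solitonPot q x ^ (q + 1) = (q * (q + 1)) ^ (q + 1) * coshPow (2 * (q + 1)) x := by
    intro x
    have hc := cosh_pos x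
    rw [solitonPot, mul_rpow hA.le (by positivity), coshPow, rpow_neg hc.le,
      inv_rpow (sq_nonneg _), ← rpow_natCast, ← rpow_mul hc.le]
    norm_num
  have hint : Integrable fun x => solitonPot q x ^ (q + 1) := by
    simp only [hW]
    exact (integrable_coshPow (by linarith)).const_mul _
  have hval : ∫ x, solitonPot q x ^ (q + 1) =
      (q * (q + 1)) ^ (q + 1) * (sqrt π * Gamma (q + 1) / Gamma (q + 1 + 1 / 2)) := by
    simp only [hW]
    rw [integral_const_mul, integral_coshPow (by linarith)]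
  have hpos : 0 < ∫ x, solitonPot q x ^ (q + 1) := by
    rw [hval]
    have := Gamma_pos_of_pos (show 0 < q + 1 by linarith)
    have := Gamma_pos_of_pos (show 0 < q + 1 + 1 / 2 by linarith)
    positivity
  set J := ∫ x, coshPow (2 * q) x with hJdef
  have hJ : 0 < J := by
    rw [hJdef, integral_coshPow hq]
    have := Gamma_pos_of_pos hq
    have := Gamma_pos_of_pos (show 0 < q + 1 / 2 by linarith)
    positivity
  set c := (sqrt J)⁻¹ with hc
  have hc2 : c ^ 2 * J = 1 := by
    rw [hc, inv_pow, sq_sqrt hJ.le, inv_mul_cancel₀ hJ.ne']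
  refine ⟨solitonPot q, ⟨fun x => by unfold solitonPot; positivity, ?_, by rwa [hp]⟩,
    by rwa [hp], (q ^ 2) ^ γ, ⟨1, fun _ x => c * coshPow q x, fun _ x => c * solitonDeriv q x,
      fun _ => q ^ 2, fun _ => isH1_const_mul_coshPow hq c, ?_, ?_, fun _ => by positivity,
      by simp⟩, ?_⟩
  · exact (continuous_const.mul ((continuous_cosh.pow 2).inv₀ fun x =>
      (pow_pos (cosh_pos x) 2).ne')).measurable
  · intro i l
    rw [if_pos (Subsingleton.elim i l)]
    simp_rw [mul_mul_mul_comm c _ c, ← sq, coshPow_sq]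
    rw [integral_const_mul, hc2]
  · intro i l
    rw [if_pos (Subsingleton.elim i l), sForm]
    simp_rw [mul_mul_mul_comm c _ c, ← sq, mul_left_comm (solitonPot q _) (c ^ 2)]
    rw [integral_const_mul, integral_const_mul, ← mul_sub, integral_energy hq, ← hJdef]
    linear_combination (-q ^ 2) * hc2
  · rw [hp, hval, L1, Lcl, show γ - 1 / 2 = q from rfl, hp,
      show γ + 1 = q + 1 + 1 / 2 by linarith, show γ + 3 / 2 = q + 1 + 1 by linarith,
      show q + 1 + 1 / 2 = q + 1 + 1 / 2 from rfl, Gamma_add_one (show q + 1 ≠ 0 by linarith)]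
    have e1 : (q ^ 2) ^ γ = q ^ q * q ^ (q + 1) := by
      rw [← rpow_natCast, ← rpow_mul hq.le, ← rpow_add hq]
      congr 1
      push_cast
      linarith
    have e2 : (q / (q + 1)) ^ q = q ^ q / (q + 1) ^ q := div_rpow hq.le (by linarith) _
    have e3 : (q * (q + 1)) ^ (q + 1) = q ^ (q + 1) * ((q + 1) ^ q * (q + 1)) := by
      rw [mul_rpow hq.le (by linarith), rpow_add_one (show q + 1 ≠ 0 by linarith)]
    rw [e1, e2, e3]
    have := Gamma_pos_of_pos (show 0 < q + 1 by linarith)
    have := Gamma_pos_of_pos (show 0 < q + 1 + 1 / 2 by linarith)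
    have := rpow_pos_of_pos hq (q + 1)
    have := rpow_pos_of_pos (show 0 < q + 1 by linarith) q
    field_simp

end Vale.Agent.P371
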