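import Vale.Agent.P371.Shell.H1
import Vale.Agent.P371.Shell.Soliton

/-!
# P371: from bounded compactly supported potentials to all potentials (scalar case)
-/

open MeasureTheory Filter Set Finset
open scoped Topology

namespace Vale.Agent.P371

lemma Lcl_pos {γ : ℝ} (hγ : 0 ≤ γ) : 0 < Lcl γ := by
  have := Real.Gamma_pos_of_pos (show 0 < γ + 1 by linarith)
  have := Real.Gamma_pos_of_pos (show 0 < γ + 3 / 2 by linarith)
  unfold Lcl
  positivity

lemma L1_pos {γ : ℝ} (hγ : 1 / 2 < γ) : 0 < L1 γ := by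
  have := Lcl_pos (show 0 ≤ γ by linarith)
  have := Real.rpow_pos_of_pos (div_pos (show 0 < γ - 1 / 2 by linarith)
    (show 0 < γ + 1 / 2 by linarith)) (γ - 1 / 2)
  unfold L1
  positivity

/-- The points where the truncated potential keeps its value. -/
def cutSet (W : ℝ → ℝ) (n : ℕ) : Set ℝ := {x | x ∈ Set.Icc (-(n : ℝ)) n ∧ W x ≤ n}

/-- The truncated potential. -/
noncomputable def cut (W : ℝ → ℝ) (n : ℕ) : ℝ → ℝ := (cutSet W n).indicator W

lemma measurableSet_cutSet {W : ℝ → ℝ} (hW : Measurable W) (n : ℕ) :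
    MeasurableSet (cutSet W n) :=
  measurableSet_Icc.inter (measurableSet_le hW measurable_const)

lemma eventually_mem_cutSet (W : ℝ → ℝ) (x : ℝ) : ∀ᶠ n : ℕ in atTop, x ∈ cutSet W n := by
  obtain ⟨N, hN⟩ := exists_nat_ge (max |x| (W x))
  filter_upwards [eventually_ge_atTop N] with n hn
  have hn' : (N : ℝ) ≤ n := Nat.cast_le.2 hn
  exact ⟨⟨by linarith [(abs_le.1 (le_of_max_le_left hN)).1],
    by linarith [(abs_le.1 (le_of_max_le_left hN)).2]⟩, by linarith [le_of_max_le_right hN]⟩

lemma tendsto_integral_cut_mul {p : ℝ} {W f : ℝ → ℝ} (hW : IsSPotential p W)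
    (hf : AEStronglyMeasurable f volume) (hWf : Integrable fun x => W x * f x) :
    Tendsto (fun n => ∫ x, cut W n x * f x) atTop (𝓝 (∫ x, W x * f x)) := by
  refine tendsto_integral_of_dominated_convergence (fun x => ‖W x * f x‖)
    (fun n => ((hW.measurable.indicator (measurableSet_cutSet hW.measurable n)).aestronglyMeasurable.mul hf))
    hWf.norm (fun n => Eventually.of_forall fun x => ?_) (Eventually.of_forall fun x => ?_)
  · unfold cut
    rw [norm_mul, norm_mul]
    exact mul_le_mul_of_nonneg_right (norm_indicator_le_norm_self _ _) (norm_nonneg _)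
  · refine tendsto_const_nhds.congr' ?_
    filter_upwards [eventually_mem_cutSet W x] with n hn
    rw [cut, Set.indicator_of_mem hn]

/-- The quadratic expression of a coefficient vector. -/
lemma quad_le {N : ℕ} {F : Fin N → Fin N → ℝ} {e : Fin N → ℝ} {j : Fin N} {c : Fin N → ℝ}
    (he : ∀ i l, i ≤ l → e l ≤ e i) (hc : ∀ i, j < i → c i = 0) :
    ∑ i, ∑ l, c i * c l * F i l ≤
      -(e j - ∑ i, ∑ l, |F i l - if i = l then -e i else 0|) * ∑ i, c i ^ 2 := by
  set η := ∑ i, ∑ l, |F i l - if i = l then -e i else 0|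
  set C := ∑ i, c i ^ 2 with hC
  have h1 : ∀ i l, c i * c l * F i l ≤
      C * |F i l - if i = l then -e i else 0| + (if i = l then -e i * c i ^ 2 else 0) := by
    intro i l
    have h2 : |c i * c l| ≤ C := by
      have hi := single_le_sum (f := fun i => c i ^ 2) (fun i _ => sq_nonneg _) (mem_univ i)
      have hl := single_le_sum (f := fun i => c i ^ 2) (fun i _ => sq_nonneg _) (mem_univ l)
      rw [abs_mul]
      nlinarith [sq_abs (c i), sq_abs (c l), sq_nonneg (|c i| - |c l|)]
    have h3 := (le_abs_self (c i * c l * (F i l - if i = l then -e i else 0))).trans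
      ((abs_mul _ _).trans_le (mul_le_mul_of_nonneg_right h2 (abs_nonneg _)))
    split_ifs with h
    · subst h
      simp only [if_true] at h3
      nlinarith
    · simp only [h, if_false] at h3
      nlinarith
  refine (sum_le_sum fun i _ => sum_le_sum fun l _ => h1 i l).trans ?_
  simp only [sum_add_distrib, ← mul_sum, sum_ite_eq, Finset.mem_univ, if_true]
  have h4 : ∑ i, -e i * c i ^ 2 ≤ -e j * C := by
    rw [hC, mul_sum]
    refine sum_le_sum fun i _ => ?_
    rcases le_or_gt i j with h | h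
    · exact mul_le_mul_of_nonneg_right (neg_le_neg (he i j h)) (sq_nonneg _)
    · simp [hc i h]
  linarith

/-- The sharp bound for every potential follows from the bounded compactly supported case. -/
theorem sNegSums_le {γ : ℝ} (hγ : 1 / 2 < γ) (hcore : SCoreBound γ) {W : ℝ → ℝ}
    (hW : IsSPotential (γ + 1 / 2) W) {s : ℝ} (hs : s ∈ sNegSums γ W) :
    s ≤ L1 γ * ∫ x, W x ^ (γ + 1 / 2) := by
  obtain ⟨N, ψ0, dψ0, e0, hH0, horth0, hdiag0, he0, rfl⟩ := hs
  -- sort the energies
  set σ := Tuple.sort fun j => -e0 j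
  set ψ := fun j => ψ0 (σ j)
  set dψ := fun j => dψ0 (σ j)
  set e := fun j => e0 (σ j)
  have he : ∀ i l, i ≤ l → e l ≤ e i := fun i l h =>
    neg_le_neg_iff.1 (Tuple.monotone_sort (fun j => -e0 j) h)
  have hH : ∀ j, IsH1 (ψ j) (dψ j) := fun j => hH0 _
  have horth : ∀ i l, ∫ x, ψ i x * ψ l x = if i = l then 1 else 0 := fun i l => by
    simp only [ψ, horth0, σ.injective.eq_iff]
  have hdiag : ∀ i l, sForm W (ψ i) (dψ i) (ψ l) (dψ l) = if i = l then -e i else 0 := fun i l => by
    simp only [ψ, dψ, e, hdiag0, σ.injective.eq_iff]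
  rw [← Equiv.sum_comp σ (fun j => e0 j ^ γ)]
  set η : ℕ → ℝ := fun n => ∑ i, ∑ l,
    |sForm (cut W n) (ψ i) (dψ i) (ψ l) (dψ l) - if i = l then -e i else 0|
  have hη : Tendsto η atTop (𝓝 0) := by
    have : Tendsto η atTop (𝓝 (∑ _i : Fin N, ∑ _l : Fin N, (0 : ℝ))) := by
      refine tendsto_finsetSum _ fun i _ => tendsto_finsetSum _ fun l _ => ?_
      rw [← hdiag i l]
      have h1 := (tendsto_integral_cut_mul hW
        ((hH i).continuous.mul (hH l).continuous).aestronglyMeasurable
        ((hH i).integrable_pot_mul (hH l) (by linarith) hW)).const_sub (∫ x, dψ i x * dψ l x)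
      have h2 := (h1.sub_const (sForm W (ψ i) (dψ i) (ψ l) (dψ l))).abs
      unfold sForm at h2 ⊢
      simp only [Pi.mul_apply] at h2
      rwa [sub_self, abs_zero] at h2
    simpa using this
  have hlim : Tendsto (fun n => ∑ j, (e j - η n) ^ γ) atTop (𝓝 (∑ j, e j ^ γ)) := by
    refine tendsto_finsetSum _ fun j _ => ?_
    have := (tendsto_const_nhds (x := e j)).sub hη
    rw [sub_zero] at this
    exact this.rpow_const (Or.inr (by linarith))
  refine le_of_tendsto hlim ?_
  have hev : ∀ᶠ n in atTop, ∀ j, η n < e j :=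
    eventually_all.2 fun j => hη.eventually (eventually_lt_nhds (he0 _))
  filter_upwards [hev] with n hn
  have hm := hW.measurable.indicator (measurableSet_cutSet hW.measurable n)
  have h := hcore (cut W n) (-n) n n hm
    (fun x => Set.indicator_nonneg (fun x _ => hW.nonneg x) x)
    (fun x => Set.indicator_le' (fun x hx => hx.2) (fun x _ => Nat.cast_nonneg n) x)
    (fun x hx => Set.indicator_of_notMem (fun h => hx h.1) W)
    N ψ dψ (fun j => Real.sqrt (e j - η n)) hH horth
    (fun j => Real.sqrt_pos.2 (sub_pos.2 (hn j)))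
    (fun i l h => Real.sqrt_le_sqrt (by linarith [he i l h]))
    (fun j c hc => by
      rw [Real.sq_sqrt (sub_pos.2 (hn j)).le]
      exact quad_le he hc)
  refine le_trans (le_of_eq (sum_congr rfl fun j _ => ?_)) (h.trans
    (mul_le_mul_of_nonneg_left ?_ (L1_pos hγ).le))
  · have h0 := (sub_pos.2 (hn j)).le
    rw [Real.sqrt_eq_rpow, ← Real.rpow_mul h0]
    congr 1
    ring
  · refine integral_mono_of_nonneg (Eventually.of_forall fun x => Real.rpow_nonneg
      (Set.indicator_nonneg (fun x _ => hW.nonneg x) x) _) hW.integrable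
      (Eventually.of_forall fun x => ?_)
    exact Real.rpow_le_rpow (Set.indicator_nonneg (fun x _ => hW.nonneg x) x)
      (Set.indicator_le_self' (fun x _ => hW.nonneg x) x) (by linarith)

/-- The scalar conjecture follows from the core bound. -/
theorem isLUB_sLTRatios {γ : ℝ} (hγ : 1 / 2 < γ) (hcore : SCoreBound γ) :
    IsLUB (sLTRatios γ) (L1 γ) := by
  refine ⟨?_, fun b hb => hb (L1_mem_sLTRatios hγ)⟩
  rintro r ⟨W, hW, hpos, s, hs, rfl⟩
  rw [div_le_iff₀ hpos]
  exact sNegSums_le hγ hcore hW hs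

end Vale.Agent.P371
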