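import Vale.Agent.P371.Shell.H1
import Vale.Agent.P371.Shell.Soliton
import Vale.Agent.P371.Shell.TrPow
import Vale.Agent.P371.Shell.Reduce

/-!
# P371: from real symmetric to complex Hermitian potentials
-/

open MeasureTheory Filter Set Finset Polynomial
open scoped Topology InnerProductSpace ComplexOrder

namespace Vale.Agent.P371

/-! ## Traces of powers from polynomial traces -/

/-- If the trace of every polynomial of `A` is read off from the values `d`, so is that of a
power. -/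
lemma trPow_eq_of_trace {𝕜 : Type*} [RCLike 𝕜] {n ι : Type*} [Fintype n] [DecidableEq n]
    [Fintype ι] {A : Matrix n n 𝕜} (hA : A.IsHermitian) (d : ι → ℝ)
    (h : ∀ P : ℝ[X], RCLike.re (aeval A P).trace = ∑ i, P.eval (d i)) (p : ℝ) :
    trPow p A = ∑ i, d i ^ p := by
  classical
  set S : Finset ℝ := univ.image hA.eigenvalues ∪ univ.image d
  set P := Lagrange.interpolate S id (fun t : ℝ => t ^ p)
  have hP : ∀ t ∈ S, P.eval t = t ^ p := fun t ht =>
    Lagrange.eval_interpolate_at_node (v := id) _ (Set.injOn_id _) ht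
  have e := h P
  rw [re_trace_aeval hA] at e
  rw [trPow_eq hA]
  calc ∑ i, hA.eigenvalues i ^ p = ∑ i, P.eval (hA.eigenvalues i) :=
        sum_congr rfl fun i _ =>
          (hP _ (mem_union_left _ (mem_image_of_mem _ (Finset.mem_univ i)))).symm
    _ = ∑ i, P.eval (d i) := e
    _ = ∑ i, d i ^ p := sum_congr rfl fun i _ =>
          hP _ (mem_union_right _ (mem_image_of_mem _ (Finset.mem_univ i)))

lemma trPow_diagonal {n : Type*} [Fintype n] [DecidableEq n] (d : n → ℝ) (p : ℝ) :
    trPow p (Matrix.diagonal fun i => (d i : ℂ)) = ∑ i, d i ^ p := by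
  refine trPow_eq_of_trace
    (Matrix.isHermitian_diagonal_of_self_adjoint _ (by ext i; simp)) d (fun P => ?_) p
  have e : aeval (Matrix.diagonal fun i => (d i : ℂ)) P =
      Matrix.diagonal (aeval (fun i => (d i : ℂ)) P) :=
    aeval_algHom_apply (Matrix.diagonalAlgHom ℝ) _ P
  rw [e, Matrix.trace_diagonal, map_sum]
  refine sum_congr rfl fun i _ => ?_
  have e2 : aeval (fun i => (d i : ℂ)) P i = aeval (d i : ℂ) P :=
    (aeval_algHom_apply (Pi.evalAlgHom ℝ (fun _ : n => ℂ) i) _ P).symm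
  have e3 : aeval ((algebraMap ℝ ℂ) (d i)) P = algebraMap ℝ ℂ (aeval (d i) P) :=
    aeval_algebraMap_apply ℂ (d i) P
  simp only [Complex.coe_algebraMap] at e3
  rw [e2, e3]
  simp [Polynomial.coe_aeval_eq_eval]

/-! ## Real potentials in `L^p` -/

lemma abs_entry_le_trace {m : ℕ} {A : Matrix (Fin m) (Fin m) ℝ} (hA : A.PosSemidef) (μ ν : Fin m) :
    |A μ ν| ≤ A.trace := by
  have hd : ∀ i, 0 ≤ A i i := fun i => hA.diag_nonneg
  have h1 : 0 ≤ (A.submatrix ![μ, ν] ![μ, ν]).det := by
    rw [(hA.submatrix ![μ, ν]).1.det_eq_prod_eigenvalues]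
    exact prod_nonneg fun i _ => (hA.submatrix ![μ, ν]).eigenvalues_nonneg i
  have hs : A ν μ = A μ ν := by simpa using congrFun (congrFun hA.1 μ) ν
  rw [Matrix.det_fin_two] at h1
  simp [hs] at h1
  have hμ : A μ μ ≤ A.trace :=
    single_le_sum (f := fun i => A i i) (fun i _ => hd i) (Finset.mem_univ μ)
  have hν : A ν ν ≤ A.trace :=
    single_le_sum (f := fun i => A i i) (fun i _ => hd i) (Finset.mem_univ ν)
  refine abs_le_of_sq_le_sq ?_ ((hd μ).trans hμ)
  nlinarith [mul_le_mul hμ hν (hd ν) ((hd μ).trans hμ)]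

lemma abs_entry_le_trPow {m : ℕ} {p : ℝ} (hp : 1 ≤ p) {A : Matrix (Fin m) (Fin m) ℝ}
    (hA : A.PosSemidef) (μ ν : Fin m) : |A μ ν| ≤ m + trPow p A := by
  refine (abs_entry_le_trace hA μ ν).trans ?_
  rw [hA.1.trace_eq_sum_eigenvalues, trPow_eq hA.1]
  refine (sum_le_sum fun i _ => le_one_add_rpow (hA.eigenvalues_nonneg i) hp).trans ?_
  simp [sum_add_distrib]

lemma trPow_zero {m : ℕ} {p : ℝ} (hp : 0 < p) : trPow p (0 : Matrix (Fin m) (Fin m) ℝ) = 0 :=
  le_antisymm ((trPow_le hp.le Matrix.PosSemidef.zero (B := 0) (by simp)).trans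
    (by rw [mul_zero, Real.zero_rpow hp.ne', mul_zero])) (trPow_nonneg Matrix.PosSemidef.zero)

lemma inner_eq_sum {m : ℕ} (x y : EuclideanSpace ℝ (Fin m)) : ⟪x, y⟫_ℝ = ∑ μ, x μ * y μ := by
  simp [PiLp.inner_apply, mul_comm]

lemma inner_mulVec_eq_sum {m : ℕ} (A : Matrix (Fin m) (Fin m) ℝ)
    (x y : EuclideanSpace ℝ (Fin m)) :
    ⟪x, Matrix.toEuclideanLin A y⟫_ℝ = ∑ μ, ∑ ν, x μ * A μ ν * y ν := by
  simp [inner_eq_sum, Matrix.toLpLin_apply, Matrix.mulVec, dotProduct, mul_sum, mul_assoc]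

lemma IsH1.clm_comp {E F : Type*} [NormedAddCommGroup E] [NormedSpace ℝ E] [CompleteSpace E]
    [NormedAddCommGroup F] [NormedSpace ℝ F] [CompleteSpace F] {ψ dψ : ℝ → E} (h : IsH1 ψ dψ)
    (L : E →L[ℝ] F) : IsH1 (fun x => L (ψ x)) (fun x => L (dψ x)) where
  memLp := L.comp_memLp' h.memLp
  memLp_deriv := L.comp_memLp' h.memLp_deriv
  ftc a b := by
    rw [L.intervalIntegral_comp_comm (h.intervalIntegrable a b), ← h.ftc a b, map_sub]

lemma IsH1.coord {m : ℕ} {ψ dψ : ℝ → EuclideanSpace ℝ (Fin m)} (h : IsH1 ψ dψ) (μ : Fin m) :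
    IsH1 (fun x => ψ x μ) (fun x => dψ x μ) :=
  h.clm_comp (EuclideanSpace.proj (𝕜 := ℝ) μ)

lemma IsMPotential.integrable_entry_mul {m : ℕ} {p : ℝ} (hp : 1 ≤ p)
    {W : ℝ → Matrix (Fin m) (Fin m) ℝ} (hW : IsMPotential p W) {u du v dv : ℝ → ℝ}
    (hu : IsH1 u du) (hv : IsH1 v dv) (μ ν : Fin m) :
    Integrable fun x => u x * W x μ ν * v x := by
  obtain ⟨A, hA⟩ := hu.exists_bound
  obtain ⟨B, hB⟩ := hv.exists_bound
  refine (((hu.integrable_mul hv).norm.const_mul (m : ℝ)).add
    (hW.integrable.const_mul (A * B))).mono'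
    ((hu.continuous.aestronglyMeasurable.mul (hW.measurable μ ν).aestronglyMeasurable).mul
      hv.continuous.aestronglyMeasurable) (Eventually.of_forall fun x => ?_)
  have h1 : ‖u x * v x‖ ≤ A * B := by
    rw [norm_mul]
    exact mul_le_mul (hA x) (hB x) (norm_nonneg _) ((norm_nonneg _).trans (hA x))
  have h2 := abs_entry_le_trPow hp (hW.posSemidef x) μ ν
  have h3 := trPow_nonneg (p := p) (hW.posSemidef x)
  show ‖u x * W x μ ν * v x‖ ≤ (m : ℝ) * ‖u x * v x‖ + A * B * trPow p (W x)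
  rw [mul_right_comm, norm_mul, Real.norm_eq_abs (W x μ ν)]
  calc ‖u x * v x‖ * |W x μ ν| ≤ ‖u x * v x‖ * (m + trPow p (W x)) :=
        mul_le_mul_of_nonneg_left h2 (norm_nonneg _)
    _ ≤ (m : ℝ) * ‖u x * v x‖ + A * B * trPow p (W x) := by
        rw [mul_add, mul_comm ‖u x * v x‖ (m : ℝ)]
        exact add_le_add_right (mul_le_mul_of_nonneg_right h1 h3) _

/-- The points where a truncated matrix potential keeps its value. -/
def mCutSet {m : ℕ} (W : ℝ → Matrix (Fin m) (Fin m) ℝ) (n : ℕ) : Set ℝ :=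
  {x | x ∈ Set.Icc (-(n : ℝ)) n ∧ ∀ μ ν, |W x μ ν| ≤ n}

/-- The sharp bound for real potentials follows from the core bound. -/
theorem rNegSums_le {γ : ℝ} (hγ : 1 / 2 < γ) (hcore : MCoreBound γ) {m : ℕ}
    {W : ℝ → Matrix (Fin m) (Fin m) ℝ} (hW : IsMPotential (γ + 1 / 2) W) {s : ℝ}
    (hs : s ∈ mNegSums γ W) : s ≤ L1 γ * ∫ x, trPow (γ + 1 / 2) (W x) := by
  classical
  obtain ⟨N, ψ0, dψ0, e0, hH0, horth0, hdiag0, he0, rfl⟩ := hs
  set σ := Tuple.sort fun j => -e0 j
  set ψ := fun j => ψ0 (σ j)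
  set dψ := fun j => dψ0 (σ j)
  set e := fun j => e0 (σ j)
  have he : ∀ i l, i ≤ l → e l ≤ e i := fun i l h =>
    neg_le_neg_iff.1 (Tuple.monotone_sort (fun j => -e0 j) h)
  have hH : ∀ j, IsH1 (ψ j) (dψ j) := fun j => hH0 _
  have horth : ∀ i l, ∫ x, ⟪ψ i x, ψ l x⟫_ℝ = if i = l then 1 else 0 := fun i l => by
    simp only [ψ, horth0, σ.injective.eq_iff]
  have hdiag : ∀ i l, mForm W (ψ i) (dψ i) (ψ l) (dψ l) = if i = l then -e i else 0 := fun i l => by
    simp only [ψ, dψ, e, hdiag0, σ.injective.eq_iff]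
    rfl
  rw [← Equiv.sum_comp σ (fun j => e0 j ^ γ)]
  set Wc : ℕ → ℝ → Matrix (Fin m) (Fin m) ℝ := fun n => (mCutSet W n).indicator W
  have hcutm : ∀ n, MeasurableSet (mCutSet W n) := fun n => by
    refine measurableSet_Icc.inter ?_
    have e : {x | ∀ μ ν, |W x μ ν| ≤ (n : ℝ)} = ⋂ μ, ⋂ ν, {x | |W x μ ν| ≤ (n : ℝ)} := by
      ext x; simp
    show MeasurableSet {x | ∀ μ ν, |W x μ ν| ≤ (n : ℝ)}
    rw [e]
    exact MeasurableSet.iInter fun μ => MeasurableSet.iInter fun ν =>
      measurableSet_le (hW.measurable μ ν).abs measurable_const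
  have hev0 : ∀ x, ∀ᶠ n : ℕ in atTop, x ∈ mCutSet W n := fun x => by
    obtain ⟨n0, hn0⟩ := exists_nat_ge (|x| + ∑ μ, ∑ ν, |W x μ ν|)
    filter_upwards [eventually_ge_atTop n0] with n hn
    have hn' : (n0 : ℝ) ≤ n := Nat.cast_le.2 hn
    have hsum : 0 ≤ ∑ μ, ∑ ν, |W x μ ν| := sum_nonneg fun μ _ => sum_nonneg fun ν _ => abs_nonneg _
    refine ⟨⟨by linarith [neg_abs_le x], by linarith [le_abs_self x]⟩, fun μ ν => ?_⟩
    have := (single_le_sum (f := fun ν => |W x μ ν|) (fun ν _ => abs_nonneg _)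
      (Finset.mem_univ ν)).trans (single_le_sum (f := fun μ => ∑ ν, |W x μ ν|)
      (fun μ _ => sum_nonneg fun ν _ => abs_nonneg _) (Finset.mem_univ μ))
    linarith [abs_nonneg x]
  set η : ℕ → ℝ := fun n => ∑ i, ∑ l,
    |mForm (Wc n) (ψ i) (dψ i) (ψ l) (dψ l) - if i = l then -e i else 0|
  have hint : ∀ i l, Integrable fun x => ⟪ψ i x, Matrix.toEuclideanLin (W x) (ψ l x)⟫_ℝ := fun i l => by
    simp only [inner_mulVec_eq_sum]
    exact integrable_finsetSum _ fun μ _ => integrable_finsetSum _ fun ν _ =>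
      hW.integrable_entry_mul (by linarith) ((hH i).coord μ) ((hH l).coord ν) μ ν
  have hη : Tendsto η atTop (𝓝 0) := by
    have : Tendsto η atTop (𝓝 (∑ _i : Fin N, ∑ _l : Fin N, (0 : ℝ))) := by
      refine tendsto_finsetSum _ fun i _ => tendsto_finsetSum _ fun l _ => ?_
      rw [← hdiag i l]
      have h0 : Tendsto (fun n => ∫ x, ⟪ψ i x, Matrix.toEuclideanLin (Wc n x) (ψ l x)⟫_ℝ) atTop
          (𝓝 (∫ x, ⟪ψ i x, Matrix.toEuclideanLin (W x) (ψ l x)⟫_ℝ)) := by
        have e : ∀ n, (fun x => ⟪ψ i x, Matrix.toEuclideanLin (Wc n x) (ψ l x)⟫_ℝ) =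
            (mCutSet W n).indicator fun x => ⟪ψ i x, Matrix.toEuclideanLin (W x) (ψ l x)⟫_ℝ :=
          fun n => funext fun x => by
            simp only [Wc, Set.indicator_apply]
            split_ifs <;> simp
        simp only [e]
        refine tendsto_integral_of_dominated_convergence
          (fun x => ‖⟪ψ i x, Matrix.toEuclideanLin (W x) (ψ l x)⟫_ℝ‖)
          (fun n => (hint i l).aestronglyMeasurable.indicator (hcutm n)) (hint i l).norm
          (fun n => Eventually.of_forall fun x => norm_indicator_le_norm_self _ _)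
          (Eventually.of_forall fun x => tendsto_const_nhds.congr' ?_)
        filter_upwards [hev0 x] with n hn
        rw [Set.indicator_of_mem hn]
      have h2 := ((h0.const_sub (∫ x, ⟪dψ i x, dψ l x⟫_ℝ)).sub_const
        (mForm W (ψ i) (dψ i) (ψ l) (dψ l))).abs
      unfold mForm at h2 ⊢
      rwa [sub_self, abs_zero] at h2
    simpa using this
  have hlim : Tendsto (fun n => ∑ j, (e j - η n) ^ γ) atTop (𝓝 (∑ j, e j ^ γ)) := by
    refine tendsto_finsetSum _ fun j _ => ?_
    have := (tendsto_const_nhds (x := e j)).sub hη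
    rw [sub_zero] at this
    exact this.rpow_const (Or.inr (by linarith))
  refine le_of_tendsto hlim ?_
  have hev : ∀ᶠ n in atTop, ∀ j, η n < e j :=
    eventually_all.2 fun j => hη.eventually (eventually_lt_nhds (he0 _))
  filter_upwards [hev] with n hn
  have hps : ∀ x, (Wc n x).PosSemidef := fun x => by
    simp only [Wc, Set.indicator_apply]
    split_ifs
    exacts [hW.posSemidef x, Matrix.PosSemidef.zero]
  have h := hcore m (Wc n) (-n) n n
    (fun μ ν => by
      have e : (fun x => Wc n x μ ν) = (mCutSet W n).indicator fun x => W x μ ν :=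
        funext fun x => by simp only [Wc, Set.indicator_apply]; split_ifs <;> simp
      rw [e]; exact (hW.measurable μ ν).indicator (hcutm n))
    hps
    (fun x μ ν => by
      simp only [Wc, Set.indicator_apply]
      split_ifs with hx
      · exact hx.2 μ ν
      · simp)
    (fun x hx => Set.indicator_of_notMem (fun h => hx h.1) W)
    N ψ dψ (fun j => Real.sqrt (e j - η n)) hH horth
    (fun j => Real.sqrt_pos.2 (sub_pos.2 (hn j)))
    (fun i l h => Real.sqrt_le_sqrt (by linarith [he i l h]))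
    (fun j c hc => by
      rw [Real.sq_sqrt (sub_pos.2 (hn j)).le]
      exact quad_le he hc)
  refine le_trans (le_of_eq (sum_congr rfl fun j _ => ?_)) (h.trans
    (mul_le_mul_of_nonneg_left ?_ (L1_pos hγ).le))
  · have h0 := (sub_pos.2 (hn j)).le
    rw [Real.sqrt_eq_rpow, ← Real.rpow_mul h0]
    congr 1
    ring
  · refine integral_mono_of_nonneg (Eventually.of_forall fun x => trPow_nonneg (hps x))
      hW.integrable (Eventually.of_forall fun x => ?_)
    simp only [Wc, Set.indicator_apply]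
    split_ifs
    · exact le_rfl
    · rw [trPow_zero (by linarith)]; exact trPow_nonneg (hW.posSemidef x)

/-! ## Complex numbers as pairs of reals -/

/-- A complex matrix as a real matrix of twice the size. -/
noncomputable def realHom (m : ℕ) :
    Matrix (Fin m) (Fin m) ℂ →ₐ[ℝ] Matrix (Fin (m * 2)) (Fin (m * 2)) ℝ :=
  (Matrix.reindexAlgEquiv ℝ ℝ finProdFinEquiv).toAlgHom.comp
    ((Matrix.compAlgEquiv (Fin m) (Fin 2) ℝ ℝ).toAlgHom.comp
      (Algebra.leftMulMatrix Complex.basisOneI).mapMatrix)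

lemma realHom_apply {m : ℕ} (A : Matrix (Fin m) (Fin m) ℂ) (μ ν : Fin m) (s t : Fin 2) :
    realHom m A (finProdFinEquiv (μ, s)) (finProdFinEquiv (ν, t)) =
      !![(A μ ν).re, -(A μ ν).im; (A μ ν).im, (A μ ν).re] s t := by
  rw [← Algebra.leftMulMatrix_complex]
  simp [realHom]

/-- A complex vector as a real vector. -/
noncomputable def realVec (m : ℕ) :
    EuclideanSpace ℂ (Fin m) →L[ℝ] EuclideanSpace ℝ (Fin (m * 2)) :=
  LinearMap.toContinuousLinearMap
    { toFun := fun v => WithLp.toLp 2 fun i =>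
        ![(v (finProdFinEquiv.symm i).1).re, (v (finProdFinEquiv.symm i).1).im]
          (finProdFinEquiv.symm i).2
      map_add' := fun u v => by
        ext i
        simp
        generalize i.modNat = s
        fin_cases s <;> simp
      map_smul' := fun c v => by
        ext i
        simp
        generalize i.modNat = s
        fin_cases s <;> simp }

lemma realVec_apply {m : ℕ} (v : EuclideanSpace ℂ (Fin m)) (μ : Fin m) (s : Fin 2) :
    realVec m v (finProdFinEquiv (μ, s)) = ![(v μ).re, (v μ).im] s := by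
  simp [realVec, -finProdFinEquiv_symm_apply]

lemma inner_realVec {m : ℕ} (u v : EuclideanSpace ℂ (Fin m)) :
    ⟪realVec m u, realVec m v⟫_ℝ = (⟪u, v⟫_ℂ).re := by
  rw [inner_eq_sum, ← finProdFinEquiv.sum_comp, Fintype.sum_prod_type, PiLp.inner_apply,
    Complex.re_sum]
  refine sum_congr rfl fun μ _ => ?_
  simp [Fin.sum_univ_two, realVec_apply, RCLike.inner_apply, Complex.mul_re]
  ring

lemma realVec_mulVec {m : ℕ} (A : Matrix (Fin m) (Fin m) ℂ) (v : EuclideanSpace ℂ (Fin m)) :
    Matrix.toEuclideanLin (realHom m A) (realVec m v) =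
      realVec m (Matrix.toEuclideanLin A v) := by
  ext i
  obtain ⟨⟨μ, s⟩, rfl⟩ := finProdFinEquiv.surjective i
  rw [realVec_apply]
  simp only [Matrix.toLpLin_apply, Matrix.mulVec, dotProduct]
  rw [← finProdFinEquiv.sum_comp, Fintype.sum_prod_type]
  fin_cases s
  · simp [realHom_apply, realVec_apply, Fin.sum_univ_two, Complex.re_sum, Complex.mul_re,
      sub_eq_add_neg]
  · simp [realHom_apply, realVec_apply, Fin.sum_univ_two, Complex.im_sum, Complex.mul_im,
      add_comm]

lemma realVec_surjective (m : ℕ) : Function.Surjective (realVec m) := fun c => by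
  refine ⟨WithLp.toLp 2 fun μ =>
    ⟨c (finProdFinEquiv (μ, 0)), c (finProdFinEquiv (μ, 1))⟩, ?_⟩
  ext i
  obtain ⟨⟨μ, s⟩, rfl⟩ := finProdFinEquiv.surjective i
  rw [realVec_apply]
  fin_cases s <;> simp

lemma posSemidef_realHom {m : ℕ} {A : Matrix (Fin m) (Fin m) ℂ} (hA : A.PosSemidef) :
    (realHom m A).PosSemidef := by
  refine Matrix.PosSemidef.of_dotProduct_mulVec_nonneg ?_ fun c => ?_
  · ext i l
    obtain ⟨⟨μ, s⟩, rfl⟩ := finProdFinEquiv.surjective i
    obtain ⟨⟨ν, t⟩, rfl⟩ := finProdFinEquiv.surjective l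
    have h1 := congrFun (congrFun hA.1 μ) ν
    rw [Matrix.conjTranspose_apply] at h1
    rw [Matrix.conjTranspose_apply, realHom_apply, realHom_apply, ← h1]
    fin_cases s <;> fin_cases t <;> simp
  · obtain ⟨v, hv⟩ := realVec_surjective m (WithLp.toLp 2 c)
    have e : star c ⬝ᵥ (realHom m A).mulVec c =
        ⟪realVec m v, Matrix.toEuclideanLin (realHom m A) (realVec m v)⟫_ℝ := by
      rw [hv, inner_eq_sum]
      simp [dotProduct, Matrix.toLpLin_apply]
    rw [e, realVec_mulVec, inner_realVec, EuclideanSpace.inner_eq_star_dotProduct]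
    have h := hA.dotProduct_mulVec_nonneg (WithLp.ofLp v)
    rw [Complex.nonneg_iff] at h
    rw [dotProduct_comm]
    simpa [Matrix.toLpLin_apply] using h.1

lemma trace_realHom {m : ℕ} (A : Matrix (Fin m) (Fin m) ℂ) :
    (realHom m A).trace = 2 * A.trace.re := by
  rw [Matrix.trace, Matrix.trace, ← finProdFinEquiv.sum_comp, Fintype.sum_prod_type,
    Complex.re_sum, mul_sum]
  refine sum_congr rfl fun μ _ => ?_
  simp [Fin.sum_univ_two, realHom_apply]
  ring

lemma trPow_realHom {m : ℕ} {A : Matrix (Fin m) (Fin m) ℂ} (hA : A.PosSemidef) (p : ℝ) :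
    trPow p (realHom m A) = 2 * trPow p A := by
  rw [trPow_eq_of_trace (posSemidef_realHom hA).1
    (Sum.elim hA.1.eigenvalues hA.1.eigenvalues) (fun P => ?_) p, trPow_eq hA.1]
  · simp [Fintype.sum_sum_type, two_mul]
  · rw [aeval_algHom_apply, RCLike.re_to_real, trace_realHom, ← RCLike.re_to_complex,
      re_trace_aeval hA.1]
    simp [Fintype.sum_sum_type, two_mul]

lemma memLp_two_integrable_inner {m : ℕ} {f g : ℝ → EuclideanSpace ℂ (Fin m)}
    (hf : MemLp f 2) (hg : MemLp g 2) : Integrable fun x => ⟪f x, g x⟫_ℂ := by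
  refine ((hf.integrable_norm_pow (p := 2) (by norm_num)).add
    (hg.integrable_norm_pow (p := 2) (by norm_num))).mono'
    (hf.aestronglyMeasurable.inner hg.aestronglyMeasurable) (Eventually.of_forall fun x => ?_)
  refine (norm_inner_le_norm _ _).trans ?_
  simp only [Pi.add_apply]
  nlinarith [sq_nonneg (‖f x‖ - ‖g x‖), norm_nonneg (f x), norm_nonneg (g x)]

lemma realHom_entry_measurable {m : ℕ} {W : ℝ → Matrix (Fin m) (Fin m) ℂ}
    (hW : ∀ μ ν, Measurable fun x => W x μ ν) (i l : Fin (m * 2)) :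
    Measurable fun x => realHom m (W x) i l := by
  obtain ⟨⟨μ, s⟩, rfl⟩ := finProdFinEquiv.surjective i
  obtain ⟨⟨ν, t⟩, rfl⟩ := finProdFinEquiv.surjective l
  simp only [realHom_apply]
  have h1 := Complex.measurable_re.comp (hW μ ν)
  have h2 := Complex.measurable_im.comp (hW μ ν)
  fin_cases s <;> fin_cases t
  · simpa [Function.comp_def] using h1
  · simpa [Function.comp_def] using h2
  · simpa [Function.comp_def] using h2
  · simpa [Function.comp_def] using h1

lemma isMPotential_realHom {m : ℕ} {p : ℝ} {W : ℝ → Matrix (Fin m) (Fin m) ℂ}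
    (hW : IsMPotential p W) : IsMPotential p fun x => realHom m (W x) where
  posSemidef x := posSemidef_realHom (hW.posSemidef x)
  measurable := realHom_entry_measurable hW.measurable
  integrable := by
    simp only [trPow_realHom (hW.posSemidef _)]
    exact hW.integrable.const_mul 2

/-- A complex family gives a real family with every energy twice. -/
lemma two_mul_mem_mNegSums {m : ℕ} {γ : ℝ} (hγ : 1 / 2 ≤ γ) {W : ℝ → Matrix (Fin m) (Fin m) ℂ}
    (hW : IsMPotential (γ + 1 / 2) W) {s : ℝ} (hs : s ∈ mNegSums γ W) :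
    2 * s ∈ mNegSums γ fun x => realHom m (W x) := by
  obtain ⟨N, ψ, dψ, e, hH, horth, hdiag, he, rfl⟩ := hs
  set a : Fin 2 → ℂ := ![1, Complex.I]
  set L : Fin 2 → (EuclideanSpace ℂ (Fin m) →L[ℝ] EuclideanSpace ℝ (Fin (m * 2))) := fun t =>
    (realVec m).comp ((a t • ContinuousLinearMap.id ℂ (EuclideanSpace ℂ (Fin m))).restrictScalars ℝ)
  have hL : ∀ t v, L t v = realVec m (a t • v) := fun t v => rfl
  have ha : ∀ s t : Fin 2, ∀ r : ℝ, (a t * (starRingEnd ℂ (a s) * (r : ℂ))).re =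
      if s = t then r else 0 := by
    intro s t r
    fin_cases s <;> fin_cases t <;> simp [a, Complex.mul_re, Complex.mul_im]
  set P : Fin (N * 2) ≃ Fin N × Fin 2 := finProdFinEquiv.symm
  refine ⟨N * 2, fun i x => L (P i).2 (ψ (P i).1 x), fun i x => L (P i).2 (dψ (P i).1 x),
    fun i => e (P i).1, fun i => (hH _).clm_comp _, fun i l => ?_, fun i l => ?_,
    fun i => he _, ?_⟩
  · simp only [hL, inner_realVec, inner_smul_left, inner_smul_right]
    have hi : Integrable fun x =>
        a (P l).2 * (starRingEnd ℂ (a (P i).2) * ⟪ψ (P i).1 x, ψ (P l).1 x⟫_ℂ) :=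
      ((memLp_two_integrable_inner (hH _).memLp (hH _).memLp).const_mul _).const_mul _
    rw [show ∫ x, (a (P l).2 * (starRingEnd ℂ (a (P i).2) * ⟪ψ (P i).1 x, ψ (P l).1 x⟫_ℂ)).re =
        (∫ x, a (P l).2 * (starRingEnd ℂ (a (P i).2) * ⟪ψ (P i).1 x, ψ (P l).1 x⟫_ℂ)).re from
        integral_re hi,
      integral_const_mul, integral_const_mul, horth]
    rw [show (if (P i).1 = (P l).1 then (1 : ℂ) else 0) =
      ((if (P i).1 = (P l).1 then (1 : ℝ) else 0 : ℝ) : ℂ) by split_ifs <;> simp, ha]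
    have hP : i = l ↔ (P i).2 = (P l).2 ∧ (P i).1 = (P l).1 := by
      rw [← P.injective.eq_iff, Prod.ext_iff]; exact and_comm
    simp only [hP, ite_and]
  · unfold mForm
    have hd : ∀ x, Matrix.toEuclideanLin (realHom m (W x)) (L (P l).2 (ψ (P l).1 x)) =
        L (P l).2 (Matrix.toEuclideanLin (W x) (ψ (P l).1 x)) := fun x => by
      rw [hL, hL, realVec_mulVec, map_smul]
    have hi1 : Integrable fun x =>
        a (P l).2 * (starRingEnd ℂ (a (P i).2) * ⟪dψ (P i).1 x, dψ (P l).1 x⟫_ℂ) :=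
      ((memLp_two_integrable_inner (hH _).memLp_deriv (hH _).memLp_deriv).const_mul _).const_mul _
    have hR := isMPotential_realHom hW
    have hi2' : Integrable fun x => ⟪ψ (P i).1 x, Matrix.toEuclideanLin (W x) (ψ (P l).1 x)⟫_ℂ := by
      have key : ∀ t : Fin 2, Integrable fun x =>
          ⟪L t (ψ (P i).1 x), Matrix.toEuclideanLin (realHom m (W x)) (L 0 (ψ (P l).1 x))⟫_ℝ :=
        fun t => by
          simp only [inner_mulVec_eq_sum]
          exact integrable_finsetSum _ fun μ _ => integrable_finsetSum _ fun ν _ =>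
            hR.integrable_entry_mul (by linarith) (((hH _).clm_comp (L t)).coord μ)
              (((hH _).clm_comp (L 0)).coord ν) μ ν
      have k0 := key 0
      have k1 := key 1
      simp only [hL, realVec_mulVec, inner_realVec, inner_smul_left, inner_smul_right, map_smul,
        show a 0 = 1 from rfl, show a 1 = Complex.I from rfl, map_one, one_mul,
        Complex.conj_I, neg_mul, Complex.neg_re, Complex.I_mul_re, neg_neg] at k0 k1
      have h := (k0.ofReal (𝕜 := ℂ)).add ((k1.ofReal (𝕜 := ℂ)).const_mul Complex.I)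
      refine h.congr (Eventually.of_forall fun x => ?_)
      simp only [Pi.add_apply]
      rw [mul_comm Complex.I]
      exact Complex.re_add_im _
    have hi2 : Integrable fun x => a (P l).2 * (starRingEnd ℂ (a (P i).2) * ⟪ψ (P i).1 x, Matrix.toEuclideanLin (W x) (ψ (P l).1 x)⟫_ℂ) :=
      (hi2'.const_mul _).const_mul _
    simp only [hd]
    simp only [hL, inner_realVec, inner_smul_left, inner_smul_right]
    rw [show ∫ x, (a (P l).2 * (starRingEnd ℂ (a (P i).2) * ⟪dψ (P i).1 x, dψ (P l).1 x⟫_ℂ)).re =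
        (∫ x, a (P l).2 * (starRingEnd ℂ (a (P i).2) * ⟪dψ (P i).1 x, dψ (P l).1 x⟫_ℂ)).re from
        integral_re hi1,
      show ∫ x, (a (P l).2 * (starRingEnd ℂ (a (P i).2) * ⟪ψ (P i).1 x, Matrix.toEuclideanLin (W x) (ψ (P l).1 x)⟫_ℂ)).re =
        (∫ x, a (P l).2 * (starRingEnd ℂ (a (P i).2) * ⟪ψ (P i).1 x, Matrix.toEuclideanLin (W x) (ψ (P l).1 x)⟫_ℂ)).re from
        integral_re hi2,
      integral_const_mul, integral_const_mul, integral_const_mul, integral_const_mul,
      ← Complex.sub_re, ← mul_sub, ← mul_sub]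
    have hd' := hdiag (P i).1 (P l).1
    unfold mForm at hd'
    rw [hd', show (if (P i).1 = (P l).1 then -(RCLike.ofReal (e (P i).1) : ℂ) else 0) =
      ((if (P i).1 = (P l).1 then -e (P i).1 else 0 : ℝ) : ℂ) by split_ifs <;> simp]
    rw [show (RCLike.ofReal (e (P i).1) : ℝ) = e (P i).1 from rfl, ha]
    have hP : i = l ↔ (P i).2 = (P l).2 ∧ (P i).1 = (P l).1 := by
      rw [← P.injective.eq_iff, Prod.ext_iff]; exact and_comm
    simp only [hP, ite_and]
  · rw [← P.symm.sum_comp, Fintype.sum_prod_type, mul_sum]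
    simp [two_mul]

/-- The conjecture for complex Hermitian potentials follows from the core bound. -/
theorem isLUB_mLTRatios {γ : ℝ} (hγ : 1 / 2 < γ) (hcore : MCoreBound γ) {m : ℕ} (hm : 0 < m) :
    IsLUB (mLTRatios γ m) (L1 γ) := by
  refine ⟨?_, fun b hb => hb ?_⟩
  · rintro r ⟨W, hW, hpos, s, hs, rfl⟩
    rw [div_le_iff₀ hpos]
    have h := rNegSums_le hγ hcore (isMPotential_realHom hW)
      (two_mul_mem_mNegSums hγ.le hW hs)
    simp only [trPow_realHom (hW.posSemidef _), integral_const_mul] at h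
    linarith
  obtain ⟨w, hw, hpos, s, ⟨N, ψ, dψ, e, hH, horth, hdiag, he, rfl⟩, hr⟩ := L1_mem_sLTRatios hγ
  set i0 : Fin m := ⟨0, hm⟩
  set d : ℝ → Fin m → ℝ := fun x μ => if μ = i0 then w x else 0
  set W : ℝ → Matrix (Fin m) (Fin m) ℂ := fun x => Matrix.diagonal fun μ => (d x μ : ℂ)
  have htr : ∀ x, trPow (γ + 1 / 2) (W x) = w x ^ (γ + 1 / 2) := fun x => by
    rw [trPow_diagonal, sum_eq_single i0 (fun μ _ h => by
      simp [d, h, Real.zero_rpow (show γ + (2 : ℝ)⁻¹ ≠ 0 by linarith)])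
      (fun h => absurd (Finset.mem_univ _) h)]
    simp [d]
  have hWpot : IsMPotential (γ + 1 / 2) W := by
    refine ⟨fun x => ?_, fun μ ν => ?_, by simpa only [htr] using hw.integrable⟩
    · refine Matrix.posSemidef_diagonal_iff.2 fun μ => ?_
      simp only [d]
      split_ifs
      · exact Complex.zero_le_real.2 (hw.nonneg x)
      · simp
    · simp only [W, Matrix.diagonal_apply, d]
      split_ifs
      · exact Complex.measurable_ofReal.comp hw.measurable
      all_goals simp
  set L : ℝ →L[ℝ] EuclideanSpace ℂ (Fin m) :=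
    (ContinuousLinearMap.id ℝ ℝ).smulRight (EuclideanSpace.single i0 (1 : ℂ))
  have hL : ∀ t : ℝ, L t = EuclideanSpace.single i0 (t : ℂ) := fun t => by
    ext μ
    simp [L, PiLp.single_apply]
  have hin : ∀ t r : ℝ, ⟪L t, L r⟫_ℂ = ((t * r : ℝ) : ℂ) := fun t r => by
    simp [hL, EuclideanSpace.inner_single_left]
  refine ⟨W, hWpot, by simpa only [htr] using hpos, _,
    ⟨N, fun j x => L (ψ j x), fun j x => L (dψ j x), e, fun j => (hH j).clm_comp L,
      fun i l => ?_, fun i l => ?_, he, rfl⟩, by simpa only [htr] using hr⟩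
  · simp only [hin, integral_complex_ofReal, horth i l]
    split_ifs <;> simp
  · unfold mForm
    have hWL : ∀ x, ⟪L (ψ i x), Matrix.toEuclideanLin (W x) (L (ψ l x))⟫_ℂ =
        ((w x * (ψ i x * ψ l x) : ℝ) : ℂ) := fun x => by
      simp [hL, EuclideanSpace.inner_single_left, Matrix.toLpLin_apply, W, d]
      ring
    simp only [hin, hWL, integral_complex_ofReal, ← Complex.ofReal_sub]
    have := hdiag i l
    unfold sForm at this
    rw [this]
    split_ifs <;> simp

end Vale.Agent.P371
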