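import Vale.Agent.P371.Defs

/-!
# P371: `H¹` functions are continuous, bounded and pair integrably
-/

open MeasureTheory Set

namespace Vale.Agent.P371

namespace IsH1

variable {E : Type*} [NormedAddCommGroup E] [NormedSpace ℝ E] {ψ dψ : ℝ → E}

lemma intervalIntegrable (h : IsH1 ψ dψ) (a b : ℝ) : IntervalIntegrable dψ volume a b :=
  ((h.memLp_deriv.locallyIntegrable (by norm_num)).integrableOn_isCompact
    isCompact_uIcc).intervalIntegrable

lemma continuous (h : IsH1 ψ dψ) : Continuous ψ := by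
  have e : ψ = fun b => ψ 0 + ∫ t in (0 : ℝ)..b, dψ t := funext fun b => by
    rw [← h.ftc 0 b]; abel
  rw [e]
  exact continuous_const.add (intervalIntegral.continuous_primitive h.intervalIntegrable 0)

lemma integrable_norm_sq (h : IsH1 ψ dψ) : Integrable fun x => ‖ψ x‖ ^ 2 := by
  simpa using h.memLp.integrable_norm_pow (p := 2) (by norm_num)

lemma integrable_norm_sq_deriv (h : IsH1 ψ dψ) : Integrable fun x => ‖dψ x‖ ^ 2 := by
  simpa using h.memLp_deriv.integrable_norm_pow (p := 2) (by norm_num)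

/-- An explicit bound of the supremum norm. -/
lemma norm_le (h : IsH1 ψ dψ) (b : ℝ) :
    ‖ψ b‖ ≤ 1 + ((∫ x, ‖ψ x‖ ^ 2) + ∫ x, ‖dψ x‖ ^ 2) / 2 := by
  set P := ∫ x, ‖ψ x‖ ^ 2 with hP
  set D := ∫ x, ‖dψ x‖ ^ 2 with hD
  have hb : b ≤ b + 1 := by linarith
  have hDI : IntervalIntegrable (fun x => ‖dψ x‖ ^ 2) volume b (b + 1) :=
    h.integrable_norm_sq_deriv.intervalIntegrable
  have hPI : IntervalIntegrable (fun x => ‖ψ x‖ ^ 2) volume b (b + 1) :=
    h.integrable_norm_sq.intervalIntegrable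
  have sub : ∀ f : ℝ → ℝ, Integrable f → (∀ x, 0 ≤ f x) →
      ∫ x in b..b + 1, f x ≤ ∫ x, f x := fun f hf hf0 => by
    rw [intervalIntegral.integral_of_le hb]
    exact setIntegral_le_integral hf (Filter.Eventually.of_forall hf0)
  have hd : ∀ a ∈ Icc b (b + 1), ‖ψ b‖ ≤ ‖ψ a‖ + (1 + D) / 2 := by
    intro a ha
    have h1 : ‖ψ a - ψ b‖ ≤ ∫ t in b..a, ‖dψ t‖ := by
      rw [h.ftc b a]; exact intervalIntegral.norm_integral_le_integral_norm ha.1
    have h2 : ∫ t in b..a, ‖dψ t‖ ≤ ∫ t in b..b + 1, ‖dψ t‖ :=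
      intervalIntegral.integral_mono_interval le_rfl ha.1 ha.2
        (Filter.Eventually.of_forall fun t => norm_nonneg _) (h.intervalIntegrable _ _).norm
    have h3 : ∫ t in b..b + 1, ‖dψ t‖ ≤ ∫ t in b..b + 1, (1 + ‖dψ t‖ ^ 2) / 2 :=
      intervalIntegral.integral_mono_on hb (h.intervalIntegrable _ _).norm
        ((intervalIntegrable_const.add hDI).div_const 2) fun t _ => by
          nlinarith [sq_nonneg (‖dψ t‖ - 1)]
    rw [intervalIntegral.integral_div, intervalIntegral.integral_add intervalIntegrable_const hDI]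
      at h3
    simp only [intervalIntegral.integral_const, smul_eq_mul, add_sub_cancel_left, mul_one] at h3
    have h4 := sub _ h.integrable_norm_sq_deriv fun x => sq_nonneg _
    have h5 := norm_le_norm_add_norm_sub' (ψ b) (ψ a)
    rw [norm_sub_rev] at h5
    rw [← hD] at h4
    linarith
  have h6 : ∫ a in b..b + 1, ‖ψ b‖ ≤ ∫ a in b..b + 1, ((1 + ‖ψ a‖ ^ 2) / 2 + (1 + D) / 2) :=
    intervalIntegral.integral_mono_on hb intervalIntegrable_const
      (((intervalIntegrable_const.add hPI).div_const 2).add intervalIntegrable_const) fun a ha => by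
        nlinarith [sq_nonneg (‖ψ a‖ - 1), hd a ha]
  rw [intervalIntegral.integral_add ((intervalIntegrable_const.add hPI).div_const 2)
    intervalIntegrable_const, intervalIntegral.integral_div,
    intervalIntegral.integral_add intervalIntegrable_const hPI] at h6
  simp only [intervalIntegral.integral_const, smul_eq_mul, add_sub_cancel_left, one_mul,
    mul_one] at h6
  have h7 := sub _ h.integrable_norm_sq fun x => sq_nonneg _
  rw [← hP] at h7
  linarith

lemma exists_bound (h : IsH1 ψ dψ) : ∃ C, ∀ x, ‖ψ x‖ ≤ C := ⟨_, h.norm_le⟩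

end IsH1

lemma IsH1.integrable_mul {ψ dψ φ dφ : ℝ → ℝ} (h : IsH1 ψ dψ) (h' : IsH1 φ dφ) :
    Integrable fun x => ψ x * φ x :=
  h.memLp.integrable_mul h'.memLp

lemma IsH1.integrable_deriv_mul {ψ dψ φ dφ : ℝ → ℝ} (h : IsH1 ψ dψ) (h' : IsH1 φ dφ) :
    Integrable fun x => dψ x * dφ x :=
  h.memLp_deriv.integrable_mul h'.memLp_deriv

lemma le_one_add_rpow {t p : ℝ} (ht : 0 ≤ t) (hp : 1 ≤ p) : t ≤ 1 + t ^ p := by
  rcases le_or_gt t 1 with h | h
  · linarith [Real.rpow_nonneg ht p]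
  · linarith [Real.self_le_rpow_of_one_le h.le hp]

/-- A function below `A (|f| + W ^ p)` is integrable. -/
lemma IsH1.integrable_pot_mul {ψ dψ φ dφ W : ℝ → ℝ} {p : ℝ} (h : IsH1 ψ dψ) (h' : IsH1 φ dφ)
    (hp : 1 ≤ p) (hW : IsSPotential p W) : Integrable fun x => W x * (ψ x * φ x) := by
  obtain ⟨A, hA⟩ := h.exists_bound
  obtain ⟨B, hB⟩ := h'.exists_bound
  refine ((h.integrable_mul h').norm.add (hW.integrable.const_mul (A * B))).mono'
    (hW.measurable.aestronglyMeasurable.mul (h.continuous.mul h'.continuous).aestronglyMeasurable)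
    (Filter.Eventually.of_forall fun x => ?_)
  have h1 : ‖ψ x * φ x‖ ≤ A * B := by
    rw [norm_mul]
    exact mul_le_mul (hA x) (hB x) (norm_nonneg _) ((norm_nonneg _).trans (hA x))
  have h2 := le_one_add_rpow (hW.nonneg x) hp
  have h3 := Real.rpow_nonneg (hW.nonneg x) p
  rw [norm_mul, Real.norm_of_nonneg (hW.nonneg x)]
  calc W x * ‖ψ x * φ x‖ ≤ (1 + W x ^ p) * ‖ψ x * φ x‖ :=
        mul_le_mul_of_nonneg_right h2 (norm_nonneg _)
    _ ≤ ‖ψ x * φ x‖ + A * B * W x ^ p := by
        rw [add_mul, one_mul, mul_comm (W x ^ p)]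
        exact add_le_add_right (mul_le_mul_of_nonneg_right h1 h3) _

end Vale.Agent.P371
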